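import Vale.Agent.P088R.RHk

/-! P088, boundary regularity: cut-offs.
Hints: `exists_cut` (P088F/TC2) for `closedBall 0 ρ ⊆ ball 0 ρ'`; `ET.cut`-type argument on the open set `Hs n`:
near a point of `up n r` the product is smooth, near a point outside `tsupport χ` it is zero.
`HS` on `Hs n`: induction on `k` for functions `w` smooth on `Hs n` which vanish for `ρ₁ < ‖z‖`, `ρ₁ < ρ'`
(`pd j w` vanishes there too), `L2 (Hs n) w` from `L2 (up n ρ') w` by `memLp_indicator_iff_restrict`. -/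

open MeasureTheory Set Filter Metric Topology
open scoped ContDiff ENNReal RealInnerProductSpace

noncomputable section

namespace Vale.Agent.P088.Rg

open Gl
open B (pd Hs)

variable {n : ℕ} [NeZero n] {V : Type} [NormedAddCommGroup V] [InnerProductSpace ℝ V]
  [FiniteDimensional ℝ V] {u v w φ ψ : Ec n → V} {r ρ R : ℝ} {k : ℕ} {s : Set (Ec n)}
  {a : Fin n → Fin n → Ec n → ℝ} {c L : ℝ} {j : Fin n}

omit [NeZero n] in
theorem exists_chi (h0 : ρ < r) : ∃ (χ : Ec n → ℝ) (R : ℝ), R < r ∧ ContDiff ℝ ∞ χ ∧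
    (∀ z, R < ‖z‖ → χ z = 0) ∧ (∀ z ∈ ball (0 : Ec n) ρ, χ z = 1) ∧ ∀ z, |χ z| ≤ 1 := by
  obtain ⟨χ, h1, -, h2, h3, h4⟩ := exists_cut (isCompact_closedBall (0 : Ec n) ρ) isOpen_ball
    (closedBall_subset_ball (by linarith : ρ < (ρ + r) / 2))
  refine ⟨χ, (ρ + r) / 2, by linarith, h1, fun z hz => ?_,
    fun z hz => (h3 z (ball_subset_closedBall hz)).self_of_nhds,
    fun z => abs_le.2 ⟨by linarith [(h4 z).1], (h4 z).2⟩⟩
  exact image_eq_zero_of_notMem_tsupport fun h => absurd (mem_ball_zero_iff.1 (h2 h)) hz.not_gt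

omit [FiniteDimensional ℝ V] in
theorem Gs.pd (h : Gs R w) (j : Fin n) : Gs R (pd j w) := by
  refine ⟨pd_sm (isOpen_Hs n) h.1 j, fun z hz => ?_⟩
  have := pd_congr (u := w) (v := fun _ => 0) (isOpen_lt continuous_const continuous_norm)
    (fun y hy => h.2 y hy) j hz
  simpa [B.pd] using this

omit [FiniteDimensional ℝ V] in
theorem gs_cut {χ : Ec n → ℝ} (hR : R < r) (hχ : ContDiff ℝ ∞ χ) (h0 : ∀ z, R < ‖z‖ → χ z = 0)
    (hu : ContDiffOn ℝ ∞ u (up n r)) : Gs R fun z => χ z • u z := by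
  refine ⟨fun z hz => ContDiffAt.contDiffWithinAt ?_, fun z hz => by simp [h0 z hz]⟩
  by_cases h : ‖z‖ < r
  · exact hχ.contDiffAt.smul
      (hu.contDiffAt ((isOpen_up' n r).mem_nhds ⟨mem_ball_zero_iff.2 h, hz⟩))
  · refine (contDiffAt_const (c := (0 : V))).congr_of_eventuallyEq ?_
    filter_upwards [(isOpen_lt continuous_const continuous_norm).mem_nhds
      (show R < ‖z‖ by linarith [not_lt.1 h])] with y hy
    simp [h0 y hy]

omit [InnerProductSpace ℝ V] [FiniteDimensional ℝ V] in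
theorem l2_glob {R' : ℝ} (h0 : ∀ z, R < ‖z‖ → w z = 0) (hR : R < R') (h : L2 (up n R') w) :
    L2 (Hs n) w := by
  have h1 := ((memLp_indicator_iff_restrict (isOpen_up' n R').measurableSet).2 h).restrict (Hs n)
  refine h1.ae_eq (ae_restrict_of_forall_mem (isOpen_Hs n).measurableSet fun z hz => ?_)
  by_cases hz' : z ∈ up n R'
  · exact indicator_of_mem hz' _
  · rw [indicator_of_notMem hz', h0 z]
    by_contra hc
    exact hz' ⟨mem_ball_zero_iff.2 ((not_lt.1 hc).trans_lt hR), hz⟩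

omit [FiniteDimensional ℝ V] in
theorem hs_glob {R' : ℝ} (hw : Gs R w) (hR : R < R') (h : HS k (up n R') w) : HS k (Hs n) w := by
  induction k generalizing w with
  | zero => exact l2_glob hw.2 hR h
  | succ k ih => exact ⟨l2_glob hw.2 hR h.1, fun j => ih (hw.pd j) (h.2 j)⟩

theorem Hk.cut {χ : Ec n → ℝ} (hR : R < r) (hχ : ContDiff ℝ ∞ χ) (h0 : ∀ z, R < ‖z‖ → χ z = 0)
    (h : Hk k r u) : HS k (Hs n) fun z => χ z • u z := by
  exact hs_glob (gs_cut hR hχ h0 h.1) (by linarith : R < (R + r) / 2)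
    ((h.smul hχ.contDiffOn).2 _ (by linarith))

/-- The gradient part follows from `Zk.h1` and `Hk.cut`. -/
theorem Zk.cut {χ : Ec n → ℝ} (hR : R < r) (hχ : ContDiff ℝ ∞ χ) (h0 : ∀ z, R < ‖z‖ → χ z = 0)
    (h : Zk r u) : ZS (Hs n) fun z => χ z • u z := by
  have h1 : Hk 0 r fun z => (z 0)⁻¹ • u z :=
    ⟨((EuclideanSpace.proj (0 : Fin n) : Ec n →L[ℝ] ℝ).contDiff.contDiffOn.inv
      fun z hz => ne_of_gt hz.2).smul h.1, fun ρ hρ => (h.2 ρ hρ).1⟩
  refine ⟨?_, (Hk.cut hR hχ h0 h.h1).2⟩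
  have h2 : L2 (Hs n) fun z => χ z • (z 0)⁻¹ • u z := Hk.cut hR hχ h0 h1
  simpa only [smul_comm (χ _)] using h2

/-- For `‖z‖ ≤ R` one has `‖φ z‖ ≤ |R| * ‖(z 0)⁻¹ • φ z‖`. -/
theorem Gs.l2 (h : Gs R φ) (hz : ZS (Hs n) φ) : L2 (Hs n) φ := by
  refine MemLp.of_le_mul (c := |R|) hz.1
    (h.1.continuousOn.aestronglyMeasurable (isOpen_Hs n).measurableSet)
    (ae_restrict_of_forall_mem (isOpen_Hs n).measurableSet fun z hz' => ?_)
  by_cases hR : R < ‖z‖
  · simp [h.2 z hR]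
  · have h0 : 0 < z 0 := hz'
    have h1 : z 0 ≤ |R| := (le_abs_self _).trans ((PiLp.norm_apply_le z 0).trans
      ((not_lt.1 hR).trans (le_abs_self R)))
    rw [norm_smul, norm_inv, Real.norm_of_nonneg h0.le, ← mul_assoc]
    exact le_mul_of_one_le_left (norm_nonneg _) ((one_le_div h0).2 h1)

end Vale.Agent.P088.Rg
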