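import Vale.Agent.P088F.TX1
import Vale.Agent.P088F.TC2
import Vale.Agent.P088F.BDefs

/-! P088, boundary regularity: definitions. `pd j u` is the derivative in direction `j`, `Hs n` the open half space. -/

open MeasureTheory Set Filter Metric Topology
open scoped ContDiff ENNReal RealInnerProductSpace

noncomputable section

namespace Vale.Agent.P088.Rg

open Gl
open B (pd Hs)

variable {n : ℕ} [NeZero n] {V : Type} [NormedAddCommGroup V] [InnerProductSpace ℝ V]

/-- Square integrable on `s`. -/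
def L2 (s : Set (Ec n)) (u : Ec n → V) : Prop := MemLp u 2 (volume.restrict s)

/-- All derivatives of order at most `k` are square integrable on `s`. -/
def HS : ℕ → Set (Ec n) → (Ec n → V) → Prop
  | 0, s, u => L2 s u
  | k + 1, s, u => L2 s u ∧ ∀ j, HS k s (pd j u)

/-- The Hardy class on `s`. -/
def ZS (s : Set (Ec n)) (u : Ec n → V) : Prop :=
  L2 s (fun z => (z 0)⁻¹ • u z) ∧ ∀ j, L2 s (pd j u)

/-- Local version of `HS`. -/
def Hk (k : ℕ) (r : ℝ) (u : Ec n → V) : Prop :=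
  ContDiffOn ℝ ∞ u (up n r) ∧ ∀ ρ < r, HS k (up n ρ) u

/-- Local version of `ZS`. -/
def Zk (r : ℝ) (u : Ec n → V) : Prop :=
  ContDiffOn ℝ ∞ u (up n r) ∧ ∀ ρ < r, ZS (up n ρ) u

/-- Smooth on the open half space, with bounded support. -/
def Gs (R : ℝ) (u : Ec n → V) : Prop :=
  ContDiffOn ℝ ∞ u (Hs n) ∧ ∀ z, R < ‖z‖ → u z = 0

/-- The operator. -/
def nd (a : Fin n → Fin n → Ec n → ℝ) (u : Ec n → V) (z : Ec n) : V :=
  ∑ i, ∑ j, a i j z • pd i (pd j u) z

/-- The operator in divergence form. -/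
def dv (a : Fin n → Fin n → Ec n → ℝ) (u : Ec n → V) (z : Ec n) : V :=
  ∑ i, pd i (fun y => ∑ j, a i j y • pd j u y) z

/-- Coefficients on a ball. -/
structure Cf (r : ℝ) (a : Fin n → Fin n → Ec n → ℝ) : Prop where
  sm : ∀ i j, ContDiffOn ℝ ∞ (a i j) (ball 0 r)
  pos : ∀ z ∈ ball (0 : Ec n) r, (Matrix.of fun i j => a i j z).PosDef

/-- Coefficients on the whole space. -/
structure Cg (V : Type) [NormedAddCommGroup V] [InnerProductSpace ℝ V]
    (a : Fin n → Fin n → Ec n → ℝ) (c L : ℝ) : Prop where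
  sm : ∀ i j, ContDiff ℝ ∞ (a i j)
  c0 : 0 < c
  ell : ∀ (z : Ec n) (X : Fin n → V), c * ∑ i, ‖X i‖ ^ 2 ≤ ∑ i, ∑ j, a i j z * ⟪X j, X i⟫
  bd : ∀ i j z, |a i j z| ≤ L
  lip : ∀ i j z w, |a i j (z + w) - a i j z| ≤ L * ‖w‖

theorem isOpen_Hs (n : ℕ) [NeZero n] : IsOpen (Hs n) := isOpen_lt continuous_const (by fun_prop)

theorem up_sub_Hs (r : ℝ) : up n r ⊆ Hs n := fun _ h => h.2

theorem up_mono {r ρ : ℝ} (h : ρ ≤ r) : up n ρ ⊆ up n r :=
  inter_subset_inter_left _ (ball_subset_ball h)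

omit [NeZero n] in
theorem pd_sm {W : Type} [NormedAddCommGroup W] [NormedSpace ℝ W] {s : Set (Ec n)} {u : Ec n → W}
    (hs : IsOpen s) (hu : ContDiffOn ℝ ∞ u s) (j : Fin n) : ContDiffOn ℝ ∞ (pd j u) s :=
  geo1_d hs hu _

omit [NeZero n] in
theorem pd_congr {W : Type} [NormedAddCommGroup W] [NormedSpace ℝ W] {s : Set (Ec n)} {u v : Ec n → W}
    (hs : IsOpen s) (h : EqOn u v s) (j : Fin n) : EqOn (pd j u) (pd j v) s := fun z hz => by
  have e : u =ᶠ[𝓝 z] v := Filter.eventuallyEq_of_mem (hs.mem_nhds hz) h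
  simp only [pd, e.fderiv_eq]

omit [NeZero n] in
theorem pd_comm {W : Type} [NormedAddCommGroup W] [NormedSpace ℝ W] {s : Set (Ec n)} {u : Ec n → W}
    (hs : IsOpen s) (hu : ContDiffOn ℝ ∞ u s) (i j : Fin n) :
    EqOn (pd i (pd j u)) (pd j (pd i u)) s := fun z hz => by
  have h : ContDiffAt ℝ 2 u z := (hu.contDiffAt (hs.mem_nhds hz)).of_le (by norm_cast)
  have h1 : DifferentiableAt ℝ (fderiv ℝ u) z :=
    (h.fderiv_right (m := 1) (by norm_num)).differentiableAt one_ne_zero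
  have e : ∀ i j : Fin n, pd i (pd j u) z = fderiv ℝ (fderiv ℝ u) z (bv i) (bv j) := fun i j => by
    have := (h1.hasFDerivAt.clm_apply (hasFDerivAt_const (bv j) z)).fderiv
    change fderiv ℝ (fun y => fderiv ℝ u y (bv j)) z (bv i) = _
    rw [this]
    simp
  rw [e, e]
  exact h.isSymmSndFDerivAt (by simp) _ _

end Vale.Agent.P088.Rg
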