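import Vale.Agent.P088R.RDefs

/-! P088, boundary regularity: the divergence theorem in the Hardy class.
Hints: `η m z = Real.smoothTransition ((m + 1) * z 0 - 1)`; `η m • Y i` (extended by zero: use `(Hs n).indicator`)
is smooth with compact support, so the integral of its derivative vanishes
(`integral_fderiv_eq_zero`-type lemma: `integral_bilinear_hasFDerivAt_right_eq_neg_left_of_integrable` or
`P292E`/`TCU.half_ibp`). `|pd 0 (η m) z| * z 0 ≤ C`, `pd i (η m) = 0` for `i ≠ 0`, and `pd 0 (η m) z = 0` when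
`2 / (m + 1) < z 0`. Dominated convergence twice (`tendsto_integral_of_dominated_convergence`). -/

open MeasureTheory Set Filter Metric Topology
open scoped ContDiff ENNReal RealInnerProductSpace

noncomputable section

namespace Vale.Agent.P088.Rg

open Gl
open B (pd Hs)

variable {n : ℕ} [NeZero n] {V : Type} [NormedAddCommGroup V] [InnerProductSpace ℝ V]
  [FiniteDimensional ℝ V] {u v w φ ψ : Ec n → V} {r ρ R : ℝ} {k : ℕ} {s : Set (Ec n)}
  {a : Fin n → Fin n → Ec n → ℝ} {c L : ℝ} {j : Fin n}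

/-- The cut-off. -/
def RDiv_eta (t : ℝ) (z : Ec n) : ℝ := Real.smoothTransition (t * z 0 - 1)

theorem RDiv_has (t : ℝ) (z : Ec n) : HasFDerivAt (RDiv_eta t)
    (deriv Real.smoothTransition (t * z 0 - 1) •
      (t • (EuclideanSpace.proj (0 : Fin n) : Ec n →L[ℝ] ℝ))) z := by
  have h1 : HasFDerivAt (fun z : Ec n => t * z 0 - 1)
      (t • (EuclideanSpace.proj (0 : Fin n) : Ec n →L[ℝ] ℝ)) z :=
    (((EuclideanSpace.proj (0 : Fin n) : Ec n →L[ℝ] ℝ).hasFDerivAt).const_mul t).sub_const 1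
  exact ((Real.smoothTransition.contDiff (n := 1)).differentiable one_ne_zero
    _).hasDerivAt.comp_hasFDerivAt z h1

theorem RDiv_pd (t : ℝ) (z : Ec n) (i : Fin n) : fderiv ℝ (RDiv_eta t) z (bv i) =
    deriv Real.smoothTransition (t * z 0 - 1) * (t * (bv i : Ec n) 0) := by
  rw [(RDiv_has t z).fderiv]
  rfl

theorem RDiv_d0 {x : ℝ} (h : x < 0) : deriv Real.smoothTransition x = 0 := by
  have e : Real.smoothTransition =ᶠ[𝓝 x] fun _ => 0 :=
    eventually_of_mem (Iio_mem_nhds h) fun y hy => Real.smoothTransition.zero_of_nonpos (le_of_lt hy)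
  rw [e.deriv_eq, deriv_const]

theorem RDiv_d1 {x : ℝ} (h : 1 < x) : deriv Real.smoothTransition x = 0 := by
  have e : Real.smoothTransition =ᶠ[𝓝 x] fun _ => 1 :=
    eventually_of_mem (Ioi_mem_nhds h) fun y hy => Real.smoothTransition.one_of_one_le (le_of_lt hy)
  rw [e.deriv_eq, deriv_const]

theorem RDiv_dc : Continuous (deriv Real.smoothTransition) :=
  (Real.smoothTransition.contDiff (n := 1)).continuous_deriv le_rfl

theorem RDiv_bd : ∃ C, ∀ x : ℝ, |(x + 1) * deriv Real.smoothTransition x| ≤ C := by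
  obtain ⟨C, hC⟩ := (isCompact_Icc (a := (0 : ℝ)) (b := 1)).exists_bound_of_continuousOn
    (f := fun x => (x + 1) * deriv Real.smoothTransition x)
    ((continuous_id.add continuous_const).mul RDiv_dc).continuousOn
  have h0 : 0 ≤ C := (norm_nonneg _).trans (hC 0 ⟨le_rfl, zero_le_one⟩)
  refine ⟨C, fun x => ?_⟩
  rcases lt_or_ge x 0 with h | h
  · rwa [RDiv_d0 h, mul_zero, abs_zero]
  rcases lt_or_ge 1 x with h' | h'
  · rwa [RDiv_d1 h', mul_zero, abs_zero]
  exact hC x ⟨h, h'⟩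

theorem RDiv_int {F G : Ec n → ℝ} (hF : Continuous F) {t : ℝ} (ht : 0 < t)
    (h0 : ∀ z : Ec n, t * z 0 - 1 < 0 → F z = 0) (hG : ContinuousOn G (Hs n))
    (hR : ∀ z, R < ‖z‖ → G z = 0) : Integrable fun z => F z * G z := by
  have hK : IsCompact (closedBall (0 : Ec n) R ∩ {z | 0 ≤ t * z 0 - 1}) :=
    (isCompact_closedBall _ _).inter_right (isClosed_le continuous_const (by fun_prop))
  have hs : closedBall (0 : Ec n) R ∩ {z | 0 ≤ t * z 0 - 1} ⊆ Hs n := fun z hz => by
    have h1 : 0 ≤ t * z 0 - 1 := hz.2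
    exact (mul_pos_iff_of_pos_left ht).1 (show 0 < t * z 0 by linarith)
  refine (integrableOn_iff_integrable_of_support_subset (s := closedBall (0 : Ec n) R ∩
    {z | 0 ≤ t * z 0 - 1}) fun z hz => ?_).1
    ((hF.continuousOn.mul (hG.mono hs)).integrableOn_compact hK)
  obtain ⟨h1, h2⟩ := mul_ne_zero_iff.1 hz
  exact ⟨mem_closedBall_zero_iff.2 (not_lt.1 fun h => h2 (hR z h)), not_lt.1 fun h => h1 (h0 z h)⟩

theorem RDiv_dct {G : Ec n → ℝ} (hG : IntegrableOn G (Hs n)) {f : ℝ → ℝ} (hf : Continuous f)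
    {C l : ℝ} (hC : ∀ x, |f x| ≤ C) (hl : ∀ x, 1 < x → f x = l) :
    Tendsto (fun m : ℕ => ∫ z in Hs n, f ((m + 1 : ℝ) * z 0 - 1) * G z) atTop
      (𝓝 (∫ z in Hs n, l * G z)) := by
  refine tendsto_integral_of_dominated_convergence (fun z => C * ‖G z‖) (fun m => ?_)
    (hG.norm.const_mul C) (fun m => Eventually.of_forall fun z => ?_) ?_
  · exact (hf.comp (by fun_prop)).aestronglyMeasurable.mul hG.aestronglyMeasurable
  · rw [norm_mul]
    exact mul_le_mul_of_nonneg_right (hC _) (norm_nonneg _)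
  · refine (ae_restrict_iff' (isOpen_Hs n).measurableSet).2 (Eventually.of_forall fun z hz => ?_)
    have hz0 : 0 < z 0 := hz
    refine tendsto_const_nhds.congr' ?_
    filter_upwards [tendsto_natCast_atTop_atTop.eventually_gt_atTop (2 / z 0)] with m hm
    rw [div_lt_iff₀ hz0] at hm
    rw [hl _ (by linarith)]

theorem RDiv_ibp {Y : Ec n → ℝ} (hY : Gs R Y) {t : ℝ} (ht : 0 < t) (i : Fin n) :
    (Integrable fun z => RDiv_eta t z * pd i Y z) ∧ ∫ z, RDiv_eta t z * pd i Y z =
      -∫ z : Ec n, deriv Real.smoothTransition (t * z 0 - 1) * (t * (bv i : Ec n) 0) * Y z := by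
  have c0 : Continuous fun z : Ec n => t * z 0 - 1 := by fun_prop
  have c1 : Continuous (RDiv_eta (n := n) t) := Real.smoothTransition.continuous.comp c0
  have z1 : ∀ z : Ec n, t * z 0 - 1 < 0 → RDiv_eta t z = 0 := fun z hz =>
    Real.smoothTransition.zero_of_nonpos hz.le
  have i1 : Integrable fun z => RDiv_eta t z * pd i Y z := by
    refine RDiv_int (R := R) c1 ht z1 (pd_sm (isOpen_Hs n) hY.1 i).continuousOn fun z hz => ?_
    have e : Y =ᶠ[𝓝 z] fun _ => 0 :=
      eventually_of_mem ((isOpen_lt continuous_const continuous_norm).mem_nhds hz) hY.2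
    simp [pd, e.fderiv_eq]
  refine ⟨i1, ?_⟩
  simp only [← RDiv_pd]
  refine integral_mul_fderiv_eq_neg_fderiv_mul_of_integrable ?_ i1
    (RDiv_int c1 ht z1 hY.1.continuousOn hY.2) (fun z _ => (RDiv_has t z).differentiableAt)
    fun z hz => ?_
  · simp only [RDiv_pd]
    exact RDiv_int ((RDiv_dc.comp c0).mul continuous_const) ht
      (fun z hz => by simp [RDiv_d0 hz]) hY.1.continuousOn hY.2
  · refine (hY.1.contDiffAt ((isOpen_Hs n).mem_nhds ?_)).differentiableAt (by simp)
    by_contra hn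
    have h1 : z 0 ≤ 0 := not_lt.1 hn
    refine notMem_tsupport_iff_eventuallyEq.2 (eventually_of_mem
      ((isOpen_lt c0 continuous_const).mem_nhds ?_) z1) hz
    show t * z 0 - 1 < 0
    nlinarith

theorem RDiv_id {Y : Fin n → Ec n → ℝ} (hY : ∀ i, Gs R (Y i)) {t : ℝ} (ht : 0 < t) :
    ∫ z in Hs n, Real.smoothTransition (t * z 0 - 1) * ∑ i, pd i (Y i) z =
      -∫ z in Hs n, (t * z 0 - 1 + 1) * deriv Real.smoothTransition (t * z 0 - 1) *
        ((z 0)⁻¹ * Y 0 z) := by
  have neg : ∀ z : Ec n, z ∉ Hs n → t * z 0 - 1 < 0 := fun z hz => by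
    have h1 : z 0 ≤ 0 := not_lt.1 hz
    nlinarith
  rw [setIntegral_eq_integral_of_forall_compl_eq_zero fun z hz => by
    rw [Real.smoothTransition.zero_of_nonpos (neg z hz).le, zero_mul]]
  simp only [Finset.mul_sum]
  have e1 := integral_finsetSum Finset.univ fun i _ => (RDiv_ibp (hY i) ht i).1
  refine e1.trans ?_
  rw [Finset.sum_eq_single 0 (fun i _ hi => ?_) (by simp), (RDiv_ibp (hY 0) ht 0).2,
    ← setIntegral_eq_integral_of_forall_compl_eq_zero (s := Hs n) fun z hz => by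
      rw [RDiv_d0 (neg z hz), zero_mul, zero_mul]]
  · refine congrArg _ (setIntegral_congr_fun (isOpen_Hs n).measurableSet fun z hz => ?_)
    have hz0 : z 0 ≠ 0 := ne_of_gt hz
    have e2 : (bv (0 : Fin n) : Ec n) 0 = 1 := by simp [bv]
    simp only [e2]
    field_simp
    ring
  · have e2 : (bv i : Ec n) 0 = 0 := by simp [bv, hi.symm]
    rw [(RDiv_ibp (hY i) ht i).2]
    simp [e2]

theorem div_zero {Y : Fin n → Ec n → ℝ} (hY : ∀ i, Gs R (Y i))
    (h0 : IntegrableOn (fun z => (z 0)⁻¹ * Y 0 z) (Hs n))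
    (h1 : IntegrableOn (fun z => ∑ i, pd i (Y i) z) (Hs n)) :
    ∫ z in Hs n, ∑ i, pd i (Y i) z = 0 := by
  obtain ⟨C, hC⟩ := RDiv_bd
  have t1 := RDiv_dct h1 Real.smoothTransition.continuous (C := 1) (l := 1)
    (fun x => abs_le.2 ⟨by linarith [Real.smoothTransition.nonneg x],
      Real.smoothTransition.le_one x⟩) fun x hx => Real.smoothTransition.one_of_one_le hx.le
  have t2 := (RDiv_dct h0 (f := fun x => (x + 1) * deriv Real.smoothTransition x)
    ((continuous_id.add continuous_const).mul RDiv_dc) hC (l := 0)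
    fun x hx => by rw [RDiv_d1 hx, mul_zero]).neg
  have e := tendsto_nhds_unique t1 (t2.congr fun m => (RDiv_id hY (by positivity)).symm)
  simpa using e

end Vale.Agent.P088.Rg
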