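import Vale.Agent.P088R.RDefs

/-! P088, boundary regularity: tangential differences.
Hints: `shift`: `measurePreserving_add_right` and `MeasurePreserving.restrict_preimage`. `dq_le`: for `z ∈ Hs n`,
`ψ (z + t • bv j) - ψ z = ∫ s in 0..1, t • pd j ψ (z + (s * t) • bv j)` (`intervalIntegral.integral_eq_sub_of_hasDerivAt`),
Cauchy-Schwarz / Jensen in `s`, `lintegral_lintegral_swap` (use the indicator of `Hs n` for measurability,
`ContinuousOn.aestronglyMeasurable`), and `shift`. `dq_fatou`: `t = 1 / (m + 1)`, `lintegral_liminf_le'`, the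
quotients tend to `pd j ψ z` pointwise (`HasFDerivAt.lim` or `hasDerivAt_iff_tendsto_slope_zero`). -/

open MeasureTheory Set Filter Metric Topology
open scoped ContDiff ENNReal RealInnerProductSpace

noncomputable section

namespace Vale.Agent.P088.Rg

open Gl
open B (pd Hs)

variable {n : ℕ} [NeZero n] {V : Type} [NormedAddCommGroup V] [InnerProductSpace ℝ V]
  [FiniteDimensional ℝ V] {u v w φ ψ : Ec n → V} {r ρ R : ℝ} {k : ℕ} {s : Set (Ec n)}
  {a : Fin n → Fin n → Ec n → ℝ} {c L : ℝ} {j : Fin n}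

theorem RDq_mem (hj : j ≠ 0) (t : ℝ) (z : Ec n) : z + t • bv j ∈ Hs n ↔ z ∈ Hs n := by
  simp [Hs, bv, hj.symm]

omit [FiniteDimensional ℝ V] in
theorem RDq_der (hj : j ≠ 0) (hψ : ContDiffOn ℝ ∞ ψ (Hs n)) {z : Ec n} (hz : z ∈ Hs n)
    (t s : ℝ) : HasDerivAt (fun s : ℝ => ψ (z + (s * t) • bv j))
      (t • pd j ψ (z + (s * t) • bv j)) s := by
  have h := ((hψ.contDiffAt ((isOpen_Hs n).mem_nhds ((RDq_mem hj (s * t) z).2 hz))).differentiableAt
    (by simp)).hasFDerivAt.comp_hasDerivAt s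
      ((((hasDerivAt_id' s).mul_const t).smul_const (bv j)).const_add z)
  rw [one_mul, map_smul] at h
  exact h

theorem shift (hj : j ≠ 0) (t : ℝ) : MeasurePreserving (fun z : Ec n => z + t • bv j)
    (volume.restrict (Hs n)) (volume.restrict (Hs n)) := by
  have h := (measurePreserving_add_right volume (t • bv j)).restrict_preimage
    (isOpen_Hs n).measurableSet
  rwa [show (fun z : Ec n => z + t • bv j) ⁻¹' Hs n = Hs n from Set.ext (RDq_mem hj t)] at h

theorem L2.shift (hj : j ≠ 0) (t : ℝ) (h : L2 (Hs n) ψ) : L2 (Hs n) fun z => ψ (z + t • bv j) := by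
  exact MemLp.comp_measurePreserving h (Rg.shift hj t)

theorem int_shift (hj : j ≠ 0) (t : ℝ) (f : Ec n → ℝ) :
    ∫ z in Hs n, f (z + t • bv j) = ∫ z in Hs n, f z := by
  exact (shift hj t).integral_comp (measurableEmbedding_addRight _) f

theorem dq_le (hj : j ≠ 0) (hψ : ContDiffOn ℝ ∞ ψ (Hs n)) (h0 : L2 (Hs n) ψ)
    (h1 : L2 (Hs n) (pd j ψ)) (t : ℝ) :
    ∫ z in Hs n, ‖ψ (z + t • bv j) - ψ z‖ ^ 2 ≤ t ^ 2 * ∫ z in Hs n, ‖pd j ψ z‖ ^ 2 := by
  borelize V
  have := FiniteDimensional.complete ℝ V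
  have : IsProbabilityMeasure (volume.restrict (Ioc (0 : ℝ) 1)) := ⟨by simp⟩
  have m : Measurable fun p : Ec n × ℝ => ‖pd j ψ (p.1 + (p.2 * t) • bv j)‖ ^ 2 :=
    ((measurable_fderiv_apply_const ℝ ψ (bv j)).comp (by fun_prop)).norm.pow_const 2
  have i : Integrable (fun p : Ec n × ℝ => ‖pd j ψ (p.1 + (p.2 * t) • bv j)‖ ^ 2)
      ((volume.restrict (Hs n)).prod (volume.restrict (Ioc (0 : ℝ) 1))) := by
    refine (integrable_prod_iff' m.aestronglyMeasurable).2 ⟨.of_forall fun s =>
      (h1.shift hj (s * t)).integrable_norm_pow two_ne_zero, ?_⟩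
    simp only [int_shift hj _ fun z => ‖‖pd j ψ z‖ ^ 2‖]
    exact integrable_const _
  calc _ ≤ ∫ z in Hs n, t ^ 2 * ∫ s in Ioc (0 : ℝ) 1, ‖pd j ψ (z + (s * t) • bv j)‖ ^ 2 := by
        refine integral_mono_of_nonneg (.of_forall fun z => by positivity)
          (i.integral_prod_left.const_mul _) ?_
        filter_upwards [ae_restrict_mem (isOpen_Hs n).measurableSet] with z hz
        have c : Continuous fun s : ℝ => pd j ψ (z + (s * t) • bv j) :=
          (pd_sm (isOpen_Hs n) hψ j).continuousOn.comp_continuous (by fun_prop) fun s =>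
            (RDq_mem hj _ z).2 hz
        have e := intervalIntegral.integral_eq_sub_of_hasDerivAt (a := 0) (b := 1)
          (fun s _ => RDq_der hj hψ hz t s) ((c.const_smul t).intervalIntegrable 0 1)
        rw [one_mul, zero_mul, zero_smul, add_zero, intervalIntegral.integral_smul,
          intervalIntegral.integral_of_le zero_le_one] at e
        rw [← e, norm_smul, mul_pow, Real.norm_eq_abs, sq_abs]
        exact mul_le_mul_of_nonneg_left ((convexOn_univ_norm.pow (fun _ _ => norm_nonneg _)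
          2).map_integral_le (by fun_prop) isClosed_univ (.of_forall fun _ => mem_univ _)
          c.integrableOn_Ioc (c.norm.pow 2).integrableOn_Ioc) (sq_nonneg t)
    _ = _ := by
        rw [integral_const_mul, integral_integral_swap i]
        simp only [int_shift hj _ fun z => ‖pd j ψ z‖ ^ 2, integral_const, probReal_univ, one_smul]

theorem dq_fatou (hj : j ≠ 0) (hψ : ContDiffOn ℝ ∞ ψ (Hs n)) (h0 : L2 (Hs n) ψ) {C : ℝ}
    (h : ∀ t : ℝ, ∫ z in Hs n, ‖ψ (z + t • bv j) - ψ z‖ ^ 2 ≤ C * t ^ 2) : L2 (Hs n) (pd j ψ) := by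
  have m : AEStronglyMeasurable (pd j ψ) (volume.restrict (Hs n)) :=
    (pd_sm (isOpen_Hs n) hψ j).continuousOn.aestronglyMeasurable (isOpen_Hs n).measurableSet
  have i : ∀ t : ℝ, Integrable (fun z => ‖t⁻¹ • (ψ (z + t • bv j) - ψ z)‖ ^ 2)
      (volume.restrict (Hs n)) := fun t =>
    (MemLp.const_smul (MemLp.sub (h0.shift hj t) h0) t⁻¹).integrable_norm_pow two_ne_zero
  refine (memLp_two_iff_integrable_sq_norm m).2 ⟨m.norm.pow 2, (hasFiniteIntegral_iff_ofReal
    (.of_forall fun z => by positivity)).2 (lt_of_le_of_lt ?_ (ENNReal.ofReal_lt_top (r := C)))⟩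
  refine le_trans (lintegral_congr_ae ?_).le ((lintegral_liminf_le' (u := 𝓝[≠] (0 : ℝ)) fun t =>
    (i t).aemeasurable.ennreal_ofReal).trans (liminf_le_of_frequently_le' (Eventually.frequently ?_)))
  · filter_upwards [ae_restrict_mem (isOpen_Hs n).measurableSet] with z hz
    have k := hasDerivAt_iff_tendsto_slope_zero.1 (RDq_der hj hψ hz 1 0)
    simp only [mul_one, zero_add, zero_smul, add_zero, one_smul] at k
    exact (ENNReal.tendsto_ofReal (k.norm.pow 2)).liminf_eq.symm
  · filter_upwards [self_mem_nhdsWithin] with t ht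
    rw [← ofReal_integral_eq_lintegral_ofReal (i t) (.of_forall fun z => by positivity)]
    refine ENNReal.ofReal_le_ofReal ?_
    simp only [norm_smul, mul_pow, integral_const_mul, Real.norm_eq_abs, sq_abs, inv_pow]
    rw [inv_mul_le_iff₀ (pow_pos (abs_pos.2 ht) 2 |>.trans_eq (sq_abs t)), mul_comm]
    exact h t

end Vale.Agent.P088.Rg
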