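import Vale.Agent.P088R.RSob

/-! P088, boundary regularity: smooth extension to the closed half ball.
Hints: `ext0`: `fderiv ℝ v z = ∑ j, (EuclideanSpace.proj j).smulRight (pd j v z)` is bounded on the convex open set `up n ρ`
(`sob` for `pd j v`), so `v` is Lipschitz there (`Convex.lipschitzOnWith_of_nnnorm_fderiv_le`),
`LipschitzOnWith.extend_finite_dimension`. `extk`: induction on `m` generalizing `v, v'`; `closure (up n ρ)` is convex with
nonempty interior (`uniqueDiffOn_convex`), `hasFDerivWithinAt_closure_of_tendsto_fderiv`,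
`contDiffOn_succ_iff_fderivWithin` or `contDiffOn_succ_iff_hasFDerivWithinAt`. `hp n ρ ⊆ closure (up n ρ)`. -/

open MeasureTheory Set Filter Metric Topology
open scoped ContDiff ENNReal RealInnerProductSpace

noncomputable section

namespace Vale.Agent.P088.Rg

open Gl
open B (pd Hs)

variable {n : ℕ} [NeZero n] {V : Type} [NormedAddCommGroup V] [InnerProductSpace ℝ V]
  [FiniteDimensional ℝ V] {u v w φ ψ : Ec n → V} {r ρ R : ℝ} {k : ℕ} {s : Set (Ec n)}
  {a : Fin n → Fin n → Ec n → ℝ} {c L : ℝ} {j : Fin n}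

omit [NeZero n] [FiniteDimensional ℝ V] in
theorem RExt_fd (v : Ec n → V) (z : Ec n) :
    fderiv ℝ v z = ∑ j, (EuclideanSpace.proj j : Ec n →L[ℝ] ℝ).smulRight (pd j v z) := by
  ext y
  conv_lhs => rw [← (EuclideanSpace.basisFun (Fin n) ℝ).sum_repr y]
  simp [pd, bv]

theorem RExt_convex (ρ : ℝ) : Convex ℝ (up n ρ) :=
  (convex_ball _ _).inter (convex_halfSpace_gt
    (EuclideanSpace.proj (0 : Fin n) : Ec n →L[ℝ] ℝ).toLinearMap.isLinear 0)

omit [FiniteDimensional ℝ V] in
theorem RExt_diff (h : Hk k r v) (h0 : ρ < r) {z : Ec n} (hz : z ∈ up n ρ) :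
    DifferentiableAt ℝ v z :=
  (h.1.contDiffAt ((isOpen_up' n r).mem_nhds (up_mono h0.le hz))).differentiableAt (by simp)

theorem RExt_cl (ρ : ℝ) : hp n ρ ⊆ closure (up n ρ) := by
  intro z hz
  refine isOpen_ball.inter_closure ⟨hz.1, ?_⟩
  have h0 : 0 ≤ z 0 := hz.2
  refine mem_closure_of_tendsto (f := fun t : ℝ => z + t • bv 0) (b := 𝓝[>] 0)
    ((Continuous.tendsto' (by fun_prop) 0 z (by simp)).mono_left nhdsWithin_le_nhds) ?_
  filter_upwards [self_mem_nhdsWithin] with t ht
  have ht' : 0 < t := ht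
  simp only [bv, PiLp.add_apply, PiLp.smul_apply, PiLp.single_apply, if_true, smul_eq_mul,
    mul_one]
  linarith


theorem ext0 (h : ∀ k, Hk k r v) (h0 : ρ < r) : ∃ v' : Ec n → V, Continuous v' ∧ EqOn v' v (up n ρ) := by
  choose C hC using fun j : Fin n => sob ((h (n + 1)).pd j) h0
  have hl : LipschitzOnWith (Real.toNNReal
      (∑ j, ‖(EuclideanSpace.proj j : Ec n →L[ℝ] ℝ)‖ * C j)) v (up n ρ) := by
    refine (RExt_convex ρ).lipschitzOnWith_of_nnnorm_fderiv_le (𝕜 := ℝ)
      (fun z hz => RExt_diff (h 0) h0 hz) fun z hz => ?_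
    refine NNReal.coe_le_coe.1 (le_trans ?_ (Real.le_coe_toNNReal _))
    rw [coe_nnnorm, RExt_fd]
    refine (norm_sum_le _ _).trans (Finset.sum_le_sum fun j _ => ?_)
    rw [ContinuousLinearMap.norm_smulRight_apply]
    exact mul_le_mul_of_nonneg_left (hC j z hz) (norm_nonneg _)
  obtain ⟨g, g1, g2⟩ := hl.extend_finite_dimension
  exact ⟨g, g1.continuous, g2.symm⟩

theorem extk (h : ∀ k, Hk k r v) (h0 : ρ < r) (h1 : 0 < ρ) {v' : Ec n → V} (hc : Continuous v')
    (e : EqOn v' v (up n ρ)) (m : ℕ) : ContDiffOn ℝ m v' (closure (up n ρ)) := by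
  have _ := h1
  induction m generalizing v v' with
  | zero => exact contDiffOn_zero.2 hc.continuousOn
  | succ m ih =>
    choose g g1 g2 using fun j : Fin n => ext0 (fun k => (h (k + 1)).pd j) h0
    have ho := isOpen_up' n ρ
    have ev : ∀ z ∈ up n ρ, v' =ᶠ[𝓝 z] v := fun z hz => eventuallyEq_of_mem (ho.mem_nhds hz) e
    rw [Nat.cast_succ, contDiffOn_succ_iff_hasFDerivWithinAt (by simp)]
    intro x hx
    refine ⟨closure (up n ρ), by rw [insert_eq_of_mem hx]; exact self_mem_nhdsWithin, by simp,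
      fun z => ∑ j, (EuclideanSpace.proj j : Ec n →L[ℝ] ℝ).smulRight (g j z), fun z _ => ?_,
      ContDiffOn.sum fun j _ => ?_⟩
    · refine hasFDerivWithinAt_closure_of_tendsto_fderiv (fun y hy => ?_) (RExt_convex ρ) ho
        (fun y _ => hc.continuousWithinAt) ?_
      · exact ((RExt_diff (h 0) h0 hy).congr_of_eventuallyEq (ev y hy)).differentiableWithinAt
      · have c : Continuous fun z =>
            ∑ j, (EuclideanSpace.proj j : Ec n →L[ℝ] ℝ).smulRight (g j z) :=
          continuous_finsetSum _ fun j _ => (ContinuousLinearMap.smulRightL ℝ (Ec n) V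
            (EuclideanSpace.proj j)).continuous.comp (g1 j)
        refine ((c.tendsto z).mono_left nhdsWithin_le_nhds).congr' ?_
        filter_upwards [self_mem_nhdsWithin] with y hy
        rw [(ev y hy).fderiv_eq, RExt_fd]
        exact Finset.sum_congr rfl fun j _ => by rw [g2 j hy]
    · exact (ContinuousLinearMap.smulRightL ℝ (Ec n) V
        (EuclideanSpace.proj j)).contDiff.comp_contDiffOn
          (ih (fun k => (h (k + 1)).pd j) (g1 j) (g2 j))

theorem ext_sm (h : ∀ k, Hk k r v) (h0 : ρ < r) (h1 : 0 < ρ) :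
    ∃ v' : Ec n → V, ContDiffOn ℝ ∞ v' (hp n ρ) ∧ EqOn v' v (up n ρ) := by
  obtain ⟨v', hc, e⟩ := ext0 h h0
  exact ⟨v', contDiffOn_infty.2 fun m => (extk h h0 h1 hc e m).mono (RExt_cl ρ), e⟩

end Vale.Agent.P088.Rg
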