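import Vale.Agent.P088R.RIbp

/-! P088, boundary regularity: boundary values and the Hardy class.
Hints: `zero_bd`: if `v z ≠ 0` then `c ≤ ‖v y‖` on a box `∏ (z i - δ, z i + δ)` intersected with the half space; the boxes
`Q ε = {0 < y 0 < ε, |y i - z i| < δ}` have volume `ε * (2 δ) ^ (n - 1)` (`Real.volume_pi_Ioo`, `PiLp.volume_preserving_ofLp`) and
`c ^ 2 / ε ^ 2 ≤ ‖(y 0)⁻¹ • v y‖ ^ 2` there. `zk_of_zero`: `ψ` is Lipschitz on `closedBall 0 ρ`, and `y - y 0 • bv 0` lies in it,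
so `(y 0)⁻¹ • ψ y` is bounded on `up n ρ`. `hardy_loc`: `hardy` for `χ • ψ` (`exists_chi`, `gs_cut`, `Zk.cut`).
`hardy_lim`: on `up n ρ ∩ {δ < z 0}` use `‖v‖ ^ 2 ≤ 2 ‖ψ‖ ^ 2 + 2 ‖ψ - v‖ ^ 2`, let `ε → 0`, then `δ → 0`
(`setLIntegral_iUnion_of_directed` or `GXl1_exh` in P088F/GXl1). -/

open MeasureTheory Set Filter Metric Topology
open scoped ContDiff ENNReal RealInnerProductSpace

noncomputable section

namespace Vale.Agent.P088.Rg

open Gl
open B (pd Hs)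

variable {n : ℕ} [NeZero n] {V : Type} [NormedAddCommGroup V] [InnerProductSpace ℝ V]
  [FiniteDimensional ℝ V] {u v w φ ψ : Ec n → V} {r ρ R : ℝ} {k : ℕ} {s : Set (Ec n)}
  {a : Fin n → Fin n → Ec n → ℝ} {c L : ℝ} {j : Fin n}

theorem RZero_box (z : Ec n) {δ ε : ℝ} (hδ : 0 < δ) (hε : 0 < ε) :
    ∃ Q : Set (Ec n), MeasurableSet Q ∧ volume Q ≠ ⊤ ∧
      volume.real Q = ε * ∏ _i ∈ Finset.univ.erase (0 : Fin n), (2 * δ) ∧
      ∀ y ∈ Q, (0 < y 0 ∧ y 0 < ε) ∧ ∀ i ≠ 0, |y i - z i| < δ := by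
  let a : Fin n → ℝ := fun i => if i = 0 then 0 else z i - δ
  let b : Fin n → ℝ := fun i => if i = 0 then ε else z i + δ
  have hab : a ≤ b := fun i => by
    simp only [a, b]
    split_ifs <;> linarith
  have hm : MeasurableSet (pi univ fun i => Ioo (a i) (b i)) :=
    MeasurableSet.univ_pi fun i => measurableSet_Ioo
  have hp := PiLp.volume_preserving_ofLp (Fin n)
  have hv := hp.measure_preimage hm.nullMeasurableSet
  refine ⟨_, hp.measurable hm, ?_, ?_, fun y hy => ⟨?_, fun i hi => ?_⟩⟩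
  · rw [hv, Real.volume_pi_Ioo]
    exact ENNReal.prod_ne_top fun _ _ => ENNReal.ofReal_ne_top
  · rw [Measure.real, hv, Real.volume_pi_Ioo_toReal hab,
      ← Finset.mul_prod_erase _ _ (Finset.mem_univ (0 : Fin n))]
    congr 1
    · simp [a, b]
    · refine Finset.prod_congr rfl fun i hi => ?_
      simp only [a, b, if_neg (Finset.ne_of_mem_erase hi)]
      ring
  · simpa [a, b] using hy 0 (mem_univ _)
  · have := hy i (mem_univ _)
    simp only [a, b, if_neg hi, mem_Ioo] at this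
    exact abs_lt.2 ⟨by linarith [this.1], by linarith [this.2]⟩

theorem zero_bd (hc : ContinuousOn v (hp n ρ)) (h : L2 (up n ρ) fun z => (z 0)⁻¹ • v z) {z : Ec n}
    (hz : z ∈ hp n ρ) (h0 : z 0 = 0) : v z = 0 := by
  by_contra hne
  have hc0 : 0 < ‖v z‖ / 2 := half_pos (norm_pos_iff.2 hne)
  have e1 : ∀ᶠ y in 𝓝[hp n ρ] z, ‖v z‖ / 2 < ‖v y‖ :=
    (hc z hz).norm.eventually (lt_mem_nhds (half_lt_self (norm_pos_iff.2 hne)))
  have e2 : ∀ᶠ y in 𝓝 z, y ∈ ball (0 : Ec n) ρ ∧ (y ∈ hp n ρ → ‖v z‖ / 2 < ‖v y‖) :=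
    (isOpen_ball.eventually_mem hz.1).and (eventually_nhdsWithin_iff.1 e1)
  have e3 := ((PiLp.continuous_toLp 2 fun _ : Fin n => ℝ).tendsto z.ofLp).eventually e2
  obtain ⟨δ, hδ, hb⟩ := Metric.eventually_nhds_iff.1 e3
  set J := ∫ y in up n ρ, ‖(y 0)⁻¹ • v y‖ ^ 2 with hJ
  have hJ0 : 0 ≤ J := integral_nonneg fun _ => sq_nonneg _
  set p := ∏ _i ∈ Finset.univ.erase (0 : Fin n), (2 * δ) with hp'
  have hp0 : 0 < p := Finset.prod_pos fun _ _ => by positivity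
  set c := ‖v z‖ / 2 with hc'
  have key : ∀ ε, 0 < ε → ε ≤ δ → c ^ 2 * p ≤ ε * J := by
    intro ε hε hεδ
    obtain ⟨Q, q1, q2, q3, q4⟩ := RZero_box z hδ hε
    have hQ : ∀ y ∈ Q, y ∈ up n ρ ∧ c < ‖v y‖ := by
      intro y hy
      have h1 := hb (y := y.ofLp) ((dist_pi_lt_iff hδ).2 fun i => by
        rw [Real.dist_eq]
        by_cases hi : i = 0
        · subst hi
          rw [h0, sub_zero, abs_of_pos (q4 y hy).1.1]
          exact (q4 y hy).1.2.trans_le hεδ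
        · exact (q4 y hy).2 i hi)
      exact ⟨⟨h1.1, (q4 y hy).1.1⟩, h1.2 ⟨h1.1, (q4 y hy).1.1.le⟩⟩
    have hsub : Q ⊆ up n ρ := fun y hy => (hQ y hy).1
    have h1 := setIntegral_ge_of_const_le_real (c := (c / ε) ^ 2) q1 q2 (fun y hy => by
      refine pow_le_pow_left₀ (by positivity) ?_ 2
      rw [norm_smul, norm_inv, Real.norm_of_nonneg (q4 y hy).1.1.le, ← div_eq_inv_mul]
      exact div_le_div₀ (norm_nonneg _) (hQ y hy).2.le (q4 y hy).1.1 (q4 y hy).1.2.le)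
      (h.sq.mono_set hsub)
    have h2 := setIntegral_mono_set h.sq (Eventually.of_forall fun _ => sq_nonneg _)
      hsub.eventuallyLE
    have h3 := mul_le_mul_of_nonneg_left (h1.trans h2) hε.le
    rw [q3, ← hp'] at h3
    refine le_trans (le_of_eq ?_) h3
    field_simp
  have hε : 0 < c ^ 2 * p / (J + 1) := by positivity
  have h1 := key _ (lt_min hδ hε) (min_le_left _ _)
  have h2 := mul_le_mul_of_nonneg_right (min_le_right δ (c ^ 2 * p / (J + 1))) hJ0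
  have h3 : c ^ 2 * p / (J + 1) * J < c ^ 2 * p := by
    rw [div_mul_eq_mul_div, div_lt_iff₀ (by positivity)]
    exact mul_lt_mul_of_pos_left (lt_add_one J) (by positivity)
  linarith

omit [FiniteDimensional ℝ V] in
theorem RZero_cont (h : ContinuousOn v (up n r)) :
    ContinuousOn (fun z : Ec n => (z 0)⁻¹ • v z) (up n r) :=
  (ContinuousOn.inv₀ (by fun_prop) fun _ hz => ne_of_gt hz.2).smul h

theorem zk_of_zero (hψ : ContDiffOn ℝ ∞ ψ (ball 0 r)) (h0 : ∀ z ∈ ball (0 : Ec n) r, z 0 = 0 → ψ z = 0) :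
    Zk r ψ := by
  have hs := hψ.mono (inter_subset_left : up n r ⊆ _)
  refine ⟨hs, fun ρ hρ => ⟨?_, ((Hk.of_sm (k := 1) hψ).2 ρ hρ).2⟩⟩
  obtain ⟨K, hK⟩ := (hψ.mono (closedBall_subset_ball hρ)).exists_lipschitzOnWith (by simp)
    (convex_closedBall 0 ρ) (isCompact_closedBall 0 ρ)
  have : IsFiniteMeasure (volume.restrict (up n ρ)) := isFiniteMeasure_restrict.2
    ((measure_mono inter_subset_left).trans_lt measure_ball_lt_top).ne
  refine MemLp.of_bound (((RZero_cont hs.continuousOn).mono (up_mono hρ.le)).aestronglyMeasurable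
    (isOpen_up' n ρ).measurableSet) K
    ((ae_restrict_iff' (isOpen_up' n ρ).measurableSet).2 (Eventually.of_forall fun z hz => ?_))
  have h1 : ‖z - z 0 • bv 0‖ ≤ ‖z‖ := by
    rw [EuclideanSpace.norm_eq, EuclideanSpace.norm_eq]
    refine Real.sqrt_le_sqrt (Finset.sum_le_sum fun i _ => ?_)
    by_cases hi : i = 0
    · subst hi
      simp [bv, sq_nonneg]
    · simp [bv, hi]
  have h2 : z ∈ closedBall (0 : Ec n) ρ := ball_subset_closedBall hz.1
  have h3 : z - z 0 • bv 0 ∈ closedBall (0 : Ec n) ρ :=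
    mem_closedBall_zero_iff.2 (h1.trans (mem_closedBall_zero_iff.1 h2))
  have h4 := hK.norm_sub_le h2 h3
  have hz0 : 0 < z 0 := hz.2
  rw [h0 _ (closedBall_subset_ball hρ h3) (by simp [bv]), sub_zero, sub_sub_cancel, norm_smul,
    Real.norm_of_nonneg hz0.le] at h4
  have h5 : ‖(bv 0 : Ec n)‖ = 1 := by simp [bv]
  rw [h5, mul_one] at h4
  rw [norm_smul, norm_inv, Real.norm_of_nonneg hz0.le, inv_mul_le_iff₀ hz0, mul_comm]
  exact h4

theorem hardy_loc (V : Type) [NormedAddCommGroup V] [InnerProductSpace ℝ V] [FiniteDimensional ℝ V]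
    (h0 : ρ < r) : ∃ K : ℝ, 0 ≤ K ∧ ∀ ψ : Ec n → V, Zk r ψ →
      ∫⁻ z in up n ρ, ENNReal.ofReal (‖(z 0)⁻¹ • ψ z‖ ^ 2) ≤
        ENNReal.ofReal K * ∫⁻ z in up n r, ENNReal.ofReal (‖ψ z‖ ^ 2 + ‖pd 0 ψ z‖ ^ 2) := by
  obtain ⟨χ, R, hR, hχ, c0, c1, c2⟩ := exists_chi (n := n) h0
  have hd : Continuous (pd 0 χ) := (hχ.continuous_fderiv (by simp)).clm_apply continuous_const
  obtain ⟨M, hM⟩ := (isCompact_closedBall (0 : Ec n) r).exists_bound_of_continuousOn hd.continuousOn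
  refine ⟨4 * (2 * (M ^ 2 + 1)), by positivity, fun ψ hψ => ?_⟩
  have hg := gs_cut hR hχ c0 hψ.1
  have hz := hψ.cut hR hχ c0
  have h1 := ENNReal.ofReal_le_ofReal (hardy hg hz)
  rw [ENNReal.ofReal_mul (by norm_num),
    ofReal_integral_eq_lintegral_ofReal hz.1.sq (Eventually.of_forall fun _ => sq_nonneg _),
    ofReal_integral_eq_lintegral_ofReal (hz.2 0).sq (Eventually.of_forall fun _ => sq_nonneg _)]
    at h1
  have h2 : ∫⁻ z in up n ρ, ENNReal.ofReal (‖(z 0)⁻¹ • ψ z‖ ^ 2) ≤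
      ∫⁻ z in Hs n, ENNReal.ofReal (‖(z 0)⁻¹ • χ z • ψ z‖ ^ 2) := by
    refine le_trans (le_of_eq ?_) (lintegral_mono_set (up_sub_Hs ρ))
    refine setLIntegral_congr_fun (isOpen_up' n ρ).measurableSet fun z hz => ?_
    simp only [c1 z hz.1, one_smul]
  have h3 : ∫⁻ z in Hs n, ENNReal.ofReal (‖pd 0 (fun z => χ z • ψ z) z‖ ^ 2) ≤
      ENNReal.ofReal (2 * (M ^ 2 + 1)) *
        ∫⁻ z in up n r, ENNReal.ofReal (‖ψ z‖ ^ 2 + ‖pd 0 ψ z‖ ^ 2) := by
    rw [← lintegral_const_mul' _ _ ENNReal.ofReal_ne_top,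
      ← lintegral_indicator (isOpen_up' n r).measurableSet]
    refine le_trans (setLIntegral_mono' (isOpen_Hs n).measurableSet fun z hz => ?_)
      (setLIntegral_le_lintegral _ _)
    by_cases hb : z ∈ up n r
    · rw [indicator_of_mem hb, ← ENNReal.ofReal_mul (by positivity)]
      refine ENNReal.ofReal_le_ofReal ?_
      have d1 : DifferentiableAt ℝ χ z := hχ.differentiable (by simp) z
      have d2 : DifferentiableAt ℝ ψ z :=
        (hψ.1.contDiffAt ((isOpen_up' n r).mem_nhds hb)).differentiableAt (by simp)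
      have e : pd 0 (fun z => χ z • ψ z) z = χ z • pd 0 ψ z + pd 0 χ z • ψ z := by
        simp only [pd, fderiv_fun_smul d1 d2]
        rfl
      have b1 := hM z (ball_subset_closedBall hb.1)
      have b2 : ‖pd 0 (fun z => χ z • ψ z) z‖ ≤ ‖pd 0 ψ z‖ + M * ‖ψ z‖ := by
        rw [e]
        refine (norm_add_le _ _).trans (add_le_add ?_ ?_) <;> rw [norm_smul]
        · exact mul_le_of_le_one_left (norm_nonneg _) (c2 z)
        · exact mul_le_mul_of_nonneg_right b1 (norm_nonneg _)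
      have b3 := pow_le_pow_left₀ (norm_nonneg _) b2 2
      nlinarith [sq_nonneg (‖pd 0 ψ z‖ - M * ‖ψ z‖), sq_nonneg ‖ψ z‖, sq_nonneg (M * ‖pd 0 ψ z‖)]
    · have hr : r ≤ ‖z‖ := not_lt.1 fun h => hb ⟨mem_ball_zero_iff.2 h, hz⟩
      rw [(hg.pd 0).2 z (hR.trans_le hr)]
      simp
  rw [ENNReal.ofReal_mul (by norm_num), mul_assoc]
  exact h2.trans (h1.trans (mul_le_mul_right h3 _))

theorem hardy_lim (hv : ContinuousOn v (up n r)) (h0 : ρ < r) {E : ℝ}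
    (h : ∀ ε > 0, ∃ ψ : Ec n → V, Zk r ψ ∧
      ∫⁻ z in up n r, ENNReal.ofReal (‖ψ z - v z‖ ^ 2) ≤ ENNReal.ofReal ε ∧
      ∫⁻ z in up n r, ENNReal.ofReal (‖ψ z‖ ^ 2 + ‖pd 0 ψ z‖ ^ 2) ≤ ENNReal.ofReal E) :
    L2 (up n ρ) fun z => (z 0)⁻¹ • v z := by
  obtain ⟨K, -, hK⟩ := hardy_loc (n := n) V h0
  have hm := (isOpen_up' n ρ).measurableSet
  have hc := (RZero_cont hv).mono (up_mono h0.le)
  refine (memLp_two_iff_integrable_sq_norm (hc.aestronglyMeasurable hm)).2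
    ⟨(hc.norm.pow 2).aestronglyMeasurable hm, (hasFiniteIntegral_iff_ofReal
      (Eventually.of_forall fun _ => sq_nonneg _)).2 ?_⟩
  have hU : up n ρ = ⋃ m : ℕ, up n ρ ∩ {z | 1 / ((m : ℝ) + 1) < z 0} := by
    refine Subset.antisymm (fun z hz => ?_) (iUnion_subset fun m => inter_subset_left)
    obtain ⟨m, hm⟩ := exists_nat_one_div_lt (K := ℝ) hz.2
    exact mem_iUnion.2 ⟨m, hz, hm⟩
  have hdir : Monotone fun m : ℕ => up n ρ ∩ {z | 1 / ((m : ℝ) + 1) < z 0} := fun m m' hmm z hz =>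
    ⟨hz.1, lt_of_le_of_lt (b := 1 / ((m : ℝ) + 1)) (c := z 0) (Nat.one_div_le_one_div hmm) hz.2⟩
  rw [hU, setLIntegral_iUnion_of_directed _ hdir.directed_le]
  refine lt_of_le_of_lt (b := ENNReal.ofReal 2 * (ENNReal.ofReal K * ENNReal.ofReal E) +
    ENNReal.ofReal 2) (iSup_le fun m => ?_) (by finiteness)
  have hδ : (0 : ℝ) < (m : ℝ) + 1 := by positivity
  obtain ⟨ψ, hψ, a1, a2⟩ := h (1 / ((m : ℝ) + 1) ^ 2) (by positivity)
  have hm' : MeasurableSet (up n ρ ∩ {z | 1 / ((m : ℝ) + 1) < z 0}) :=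
    hm.inter (isOpen_lt continuous_const (by fun_prop)).measurableSet
  have b1 : ∀ z ∈ up n ρ ∩ {z | 1 / ((m : ℝ) + 1) < z 0},
      ENNReal.ofReal (‖(z 0)⁻¹ • v z‖ ^ 2) ≤
        ENNReal.ofReal 2 * ENNReal.ofReal (‖(z 0)⁻¹ • ψ z‖ ^ 2) +
        ENNReal.ofReal (2 * ((m : ℝ) + 1) ^ 2) * ENNReal.ofReal (‖ψ z - v z‖ ^ 2) := by
    intro z hz
    rw [← ENNReal.ofReal_mul (by norm_num),
      ← ENNReal.ofReal_mul (by positivity), ← ENNReal.ofReal_add (by positivity) (by positivity)]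
    refine ENNReal.ofReal_le_ofReal ?_
    have hz0 : 0 < z 0 := hz.1.2
    have c1 : (z 0)⁻¹ ≤ (m : ℝ) + 1 := by
      rw [inv_le_comm₀ hz0 hδ, ← one_div]
      exact le_of_lt hz.2
    have c2 : ‖(z 0)⁻¹ • v z‖ ≤ ‖(z 0)⁻¹ • ψ z‖ + ((m : ℝ) + 1) * ‖ψ z - v z‖ := by
      have e : (z 0)⁻¹ • v z = (z 0)⁻¹ • ψ z - (z 0)⁻¹ • (ψ z - v z) := by
        rw [smul_sub, sub_sub_cancel]
      rw [e]
      refine (norm_sub_le _ _).trans (add_le_add le_rfl ?_)
      rw [norm_smul, Real.norm_of_nonneg (inv_pos.2 hz0).le]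
      exact mul_le_mul_of_nonneg_right c1 (norm_nonneg _)
    have c3 := pow_le_pow_left₀ (norm_nonneg _) c2 2
    nlinarith [sq_nonneg (‖(z 0)⁻¹ • ψ z‖ - ((m : ℝ) + 1) * ‖ψ z - v z‖)]
  have b2 : AEMeasurable (fun z => ENNReal.ofReal (2 * ((m : ℝ) + 1) ^ 2) *
      ENNReal.ofReal (‖ψ z - v z‖ ^ 2)) (volume.restrict (up n ρ)) :=
    ((((hψ.1.continuousOn.sub hv).mono (up_mono h0.le)).norm.pow 2).aemeasurable
      hm).ennreal_ofReal.const_mul _
  refine (setLIntegral_mono' hm' b1).trans ((lintegral_mono_set inter_subset_left).trans ?_)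
  rw [lintegral_add_right' _ b2, lintegral_const_mul' _ _ ENNReal.ofReal_ne_top,
    lintegral_const_mul' _ _ ENNReal.ofReal_ne_top]
  refine add_le_add (mul_le_mul_right ((hK ψ hψ).trans (mul_le_mul_right a2 _)) _) ?_
  refine (mul_le_mul_right ((lintegral_mono_set (up_mono h0.le)).trans a1) _).trans ?_
  rw [← ENNReal.ofReal_mul (by positivity)]
  refine ENNReal.ofReal_le_ofReal (le_of_eq ?_)
  field_simp

end Vale.Agent.P088.Rg
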