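import Vale.Agent.P088R.RReg
import Vale.Agent.P088R.RExt
import Vale.Agent.P088R.RZero

/-! P088, boundary regularity in coordinates.
Hints: `a p q z = γ.h q p z` (`Cf`: `Geo.Sm.h`, `Matrix.PosDef.inv`, `.smul`, `.transpose`); `Geo.Sm.ew_iff` and `geo1_vec` (P088F/Geo1) give
`nd a u = -∑ geo1B (pd p u) - geo1C u` on `up n r`; for `v = u - f` apply `reg_sys` with the operators restricted to real
scalars (`ContinuousLinearMap.restrictScalarsL`, see `contDiffOn_op` in TE1) and
`G = -(nd a f) - ∑ geo1B (pd p f) - geo1C f`; then `ext_sm`, `zero_bd`; the result is `v' + f`. -/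

open MeasureTheory Set Filter Metric Topology
open scoped ContDiff ENNReal RealInnerProductSpace

noncomputable section

namespace Vale.Agent.P088.Rg

open Gl
open B (pd Hs)

variable {n N : ℕ} [NeZero n] {γ : Geo n N} {r ρ : ℝ} {u f : Ec n → Fb N}

omit [NeZero n] in
theorem REbr_pd {s : Set (Ec n)} (hs : IsOpen s) (hu : ContDiffOn ℝ ∞ u s) (hf : ContDiffOn ℝ ∞ f s)
    (j : Fin n) : EqOn (pd j fun z => u z - f z) (fun z => pd j u z - pd j f z) s := fun z hz => by
  simp only [pd]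
  rw [fderiv_fun_sub ((hu.contDiffAt (hs.mem_nhds hz)).differentiableAt (by simp))
    ((hf.contDiffAt (hs.mem_nhds hz)).differentiableAt (by simp))]
  rfl

theorem ebr (hs : γ.Sm (ball 0 r)) (hf : ContDiff ℝ ∞ f) (hu : EW (up n r) γ u 0)
    (hz : Zk r fun z => u z - f z) (h0 : ρ < r) (h1 : 0 < ρ) :
    ∃ u' : Ec n → Fb N, ContDiffOn ℝ ∞ u' (hp n ρ) ∧ EqOn u' u (up n ρ) ∧
      ∀ z ∈ hp n ρ, z 0 = 0 → u' z = f z := by
  have o := isOpen_up' n r
  have ob : IsOpen (ball (0 : Ec n) r) := isOpen_ball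
  have hs' : γ.Sm (up n r) := hs.mono inter_subset_left
  obtain ⟨su, hP⟩ := (hs'.ew_iff o continuousOn_const).1 hu
  have sf : ContDiffOn ℝ ∞ f (up n r) := hf.contDiffOn
  have ha : Cf r fun p q => γ.h q p := ⟨fun i j => hs.h j i, fun z hz =>
    ((hs.pos z hz).inv.smul (hs.vol_pos hz)).transpose⟩
  have hB : ∀ p, ContDiffOn ℝ ∞ (geo1B γ p) (ball 0 r) := fun p => .sum fun j _ =>
    (((geo1_d ob (hs.h p j) _).smul contDiffOn_const).add ((hs.h p j).smul (hs.a j))).add
      ((hs.h j p).smul (hs.a j))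
  have hC : ContDiffOn ℝ ∞ (geo1C γ) (ball 0 r) := .sum fun j _ => .sum fun i _ =>
    (((geo1_d ob (hs.h i j) _).smul (hs.a i)).add ((hs.h i j).smul (geo1_d ob (hs.a i) _))).add
      ((hs.h i j).smul ((hs.a j).mul (hs.a i)))
  have hR := (ContinuousLinearMap.restrictScalarsL ℂ (Fb N) (Fb N) ℝ ℝ).contDiff (n := ∞)
  have hk := reg_sys ha (fun p => (hR.comp_contDiffOn (hB p)).neg) (hR.comp_contDiffOn hC).neg
    (hs.P ob hf.contDiffOn).neg hz fun z hz => by
      have e1 := (geo1_vec hs' o hz (su.contDiffAt (o.mem_nhds hz))).symm.trans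
        ((hP z hz).trans (neg_eq_zero.2 (smul_zero _)))
      have e2 : ∀ i j, pd i (pd j fun z => u z - f z) z = pd i (pd j u) z - pd i (pd j f) z :=
        fun i j => (pd_congr o (REbr_pd o su sf j) i hz).trans
          (REbr_pd o (pd_sm o su j) (pd_sm o sf j) i hz)
      rw [add_assoc, add_eq_zero_iff_eq_neg] at e1
      simp only [nd, e2, REbr_pd o su sf _ hz, smul_sub, Finset.sum_sub_distrib]
      rw [geo1_vec hs' o hz hf.contDiffAt]
      refine (congrArg (· - _) e1).trans ?_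
      have e3 : ∀ (T : Op N) x, ContinuousLinearMap.restrictScalarsL ℂ (Fb N) (Fb N) ℝ ℝ T x = T x :=
        fun _ _ => rfl
      unfold pd
      simp only [neg_apply, Function.comp, e3, map_sub, Finset.sum_sub_distrib,
        Finset.sum_neg_distrib]
      abel
  obtain ⟨v, v1, v2⟩ := ext_sm hk h0 h1
  refine ⟨fun z => v z + f z, v1.add hf.contDiffOn, fun z hz => by simp only [v2 hz, sub_add_cancel],
    fun z hz' h2 => ?_⟩
  have h3 : L2 (up n ρ) fun z => (z 0)⁻¹ • v z :=
    HS.congr (k := 0) (isOpen_up' n ρ) (hz.2 ρ h0).1 fun z hz => by simp only [v2 hz]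
  simp only [zero_bd v1.continuousOn h3 hz' h2, zero_add]

end Vale.Agent.P088.Rg
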