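import Vale.Agent.P088R.RIbp
import Vale.Agent.P088R.RDq

/-! P088, boundary regularity: the energy estimate for tangential differences.
Hints: write `e = t • bv j`, `Δ f z = f (z + e) - f z`, `φ = Δ v` (`gs_dq`: class `Gs`, `ZS`; `pd i (Δ v) = Δ (pd i v)` on
`Hs n`), `X i = ∑ l, a i l • pd l v`, `G = dv a v`. `ibp` for `Δ (X i)` and `φ`:
`∫ ∑ ⟪Δ (X i), pd i φ⟫ = -∫ ⟪Δ G, φ⟫ = -∫ ⟪G z, φ (z - e) - φ z⟫` (`int_shift`), and by `dq_le` for `φ` and `-t`
`∫ ‖φ (z - e) - φ z‖ ^ 2 ≤ t ^ 2 * E`, `E = ∑ i, ∫ ‖pd i φ‖ ^ 2`. `Δ (X i) z = ∑ a i l (z + e) • pd l φ z + ∑ Δ (a i l) z • pd l v z`.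
Use `|⟪x, y⟫| ≤ δ ‖y‖ ^ 2 + ‖x‖ ^ 2 / (4 δ)` pointwise to get `c E ≤ c / 2 * E + C t ^ 2` (case `t = 0` trivial). -/

open MeasureTheory Set Filter Metric Topology
open scoped ContDiff ENNReal RealInnerProductSpace

noncomputable section

namespace Vale.Agent.P088.Rg

open Gl
open B (pd Hs)

variable {n : ℕ} [NeZero n] {V : Type} [NormedAddCommGroup V] [InnerProductSpace ℝ V]
  [FiniteDimensional ℝ V] {u v w φ ψ : Ec n → V} {r ρ R : ℝ} {k : ℕ} {s : Set (Ec n)}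
  {a : Fin n → Fin n → Ec n → ℝ} {c L : ℝ} {j : Fin n}

theorem REn_zero (hj : j ≠ 0) (t : ℝ) (z : Ec n) : (z + t • bv j) 0 = z 0 := by
  simp [bv, hj.symm]

theorem REn_mem (hj : j ≠ 0) (t : ℝ) {z : Ec n} (hz : z ∈ Hs n) : z + t • bv j ∈ Hs n :=
  lt_of_lt_of_eq hz (REn_zero hj t z).symm

omit [NeZero n] in
theorem REn_norm (t : ℝ) (j : Fin n) : ‖t • bv j‖ = |t| := by
  simp [bv, norm_smul]

omit [FiniteDimensional ℝ V] in
theorem REn_sm (hj : j ≠ 0) (t : ℝ) (hv : ContDiffOn ℝ ∞ v (Hs n)) :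
    ContDiffOn ℝ ∞ (fun z => v (z + t • bv j) - v z) (Hs n) :=
  (hv.comp (contDiffOn_id.add contDiffOn_const) fun _ hz => REn_mem hj t hz).sub hv

omit [FiniteDimensional ℝ V] in
theorem REn_congr (h : L2 (Hs n) u) (e : EqOn v u (Hs n)) : L2 (Hs n) v :=
  MemLp.ae_eq ((ae_restrict_mem (isOpen_Hs n).measurableSet).mono fun _ hz => (e hz).symm) h

theorem REn_dq (hj : j ≠ 0) (t : ℝ) (h : L2 (Hs n) u) :
    L2 (Hs n) fun z => u (z + t • bv j) - u z := MemLp.sub (h.shift hj t) h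

theorem REn_am {δ : ℝ} (hδ : 0 < δ) (x y : ℝ) : x * y ≤ δ * y ^ 2 + x ^ 2 / (4 * δ) := by
  have e : δ * y ^ 2 + x ^ 2 / (4 * δ) - x * y = (2 * δ * y - x) ^ 2 / (4 * δ) := by
    field_simp
    ring
  have := div_nonneg (sq_nonneg (2 * δ * y - x)) (by positivity : 0 ≤ 4 * δ)
  linarith

omit [FiniteDimensional ℝ V] in
theorem REn_pt (ha : Cg V a c L) (z e : Ec n) (P D : Fin n → V) :
    3 / 4 * c * ∑ i, ‖P i‖ ^ 2 - n ^ 2 * L ^ 2 / c * ‖e‖ ^ 2 * ∑ l, ‖D l‖ ^ 2 ≤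
      ∑ i, ⟪∑ l, a i l (z + e) • (P l + D l) - ∑ l, a i l z • D l, P i⟫ := by
  have hn : (0 : ℝ) < n := Nat.cast_pos.2 (NeZero.pos n)
  have hc := ha.c0
  have e1 : ∀ i, ⟪∑ l, a i l (z + e) • (P l + D l) - ∑ l, a i l z • D l, P i⟫ =
      ∑ l, a i l (z + e) * ⟪P l, P i⟫ + ∑ l, (a i l (z + e) - a i l z) * ⟪D l, P i⟫ := fun i => by
    simp only [inner_sub_left, sum_inner, inner_add_left, real_inner_smul_left,
      ← Finset.sum_sub_distrib, ← Finset.sum_add_distrib]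
    exact Finset.sum_congr rfl fun l _ => by ring
  have e2 : ∀ i l, -(c / (4 * n) * ‖P i‖ ^ 2 + n * L ^ 2 / c * ‖e‖ ^ 2 * ‖D l‖ ^ 2) ≤
      (a i l (z + e) - a i l z) * ⟪D l, P i⟫ := fun i l => by
    refine neg_le_of_abs_le ?_
    rw [abs_mul]
    refine (mul_le_mul (ha.lip i l z e) (abs_real_inner_le_norm _ _) (abs_nonneg _)
      ((abs_nonneg _).trans (ha.lip i l z e))).trans ?_
    rw [← mul_assoc]
    refine (REn_am (δ := c / (4 * n)) (by positivity) _ _).trans_eq ?_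
    field_simp
  have e3 := Finset.sum_le_sum fun i (_ : i ∈ Finset.univ) =>
    Finset.sum_le_sum fun l (_ : l ∈ Finset.univ) => e2 i l
  simp only [Finset.sum_neg_distrib, Finset.sum_add_distrib, Finset.sum_const, Finset.card_univ,
    Fintype.card_fin, nsmul_eq_mul, ← Finset.mul_sum] at e3
  simp only [e1, Finset.sum_add_distrib]
  have e4 : n * (c / (4 * n) * ∑ i, ‖P i‖ ^ 2) = c / 4 * ∑ i, ‖P i‖ ^ 2 := by field_simp
  have e5 := ha.ell (z + e) P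
  have e6 : n * (n * L ^ 2 / c * ‖e‖ ^ 2 * ∑ l, ‖D l‖ ^ 2) =
      n ^ 2 * L ^ 2 / c * ‖e‖ ^ 2 * ∑ l, ‖D l‖ ^ 2 := by ring
  rw [e4, e6] at e3
  linarith

theorem pd_shift (hj : j ≠ 0) (t : ℝ) (hv : ContDiffOn ℝ ∞ v (Hs n)) (i : Fin n) :
    EqOn (pd i fun z => v (z + t • bv j) - v z) (fun z => pd i v (z + t • bv j) - pd i v z) (Hs n) := by
  intro z hz
  have d : ∀ y ∈ Hs n, DifferentiableAt ℝ v y := fun y hy =>
    (hv.contDiffAt ((isOpen_Hs n).mem_nhds hy)).differentiableAt (by simp)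
  have d1 : DifferentiableAt ℝ (fun y => v (y + t • bv j)) z :=
    (d _ (REn_mem hj t hz)).comp z (f := fun y => y + t • bv j) (by fun_prop)
  simp only [pd, fderiv_fun_sub d1 (d z hz), fderiv_comp_add_right]
  rfl

theorem gs_dq (hj : j ≠ 0) (t : ℝ) (hv : Gs R v) (hz : ZS (Hs n) v) :
    Gs (R + |t|) (fun z => v (z + t • bv j) - v z) ∧ ZS (Hs n) fun z => v (z + t • bv j) - v z := by
  refine ⟨⟨REn_sm hj t hv.1, fun z h => ?_⟩, ?_,
    fun i => REn_congr (REn_dq hj t (hz.2 i)) (pd_shift hj t hv.1 i)⟩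
  · have h1 := norm_sub_le (z + t • bv j) (t • bv j)
    rw [add_sub_cancel_right, REn_norm] at h1
    simp only [hv.2 z (by linarith [abs_nonneg t]), hv.2 (z + t • bv j) (by linarith), sub_zero]
  · refine REn_congr (REn_dq hj t hz.1) fun z _ => ?_
    simp only [REn_zero hj, smul_sub]

theorem energy (ha : Cg V a c L) (hj : j ≠ 0) (hv : Gs R v) (hz : ZS (Hs n) v)
    (hG : L2 (Hs n) (dv a v)) : ∃ C : ℝ, ∀ (t : ℝ) (i : Fin n),
      ∫ z in Hs n, ‖pd i v (z + t • bv j) - pd i v z‖ ^ 2 ≤ C * t ^ 2 := by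
  have ms := (isOpen_Hs n).measurableSet
  have hc := ha.c0
  have sD := fun l => pd_sm (isOpen_Hs n) hv.1 l
  have sX : ∀ i, ContDiffOn ℝ ∞ (fun y => ∑ l, a i l y • pd l v y) (Hs n) := fun i =>
    ContDiffOn.sum fun l _ => (ha.sm i l).contDiffOn.smul (sD l)
  have lX : ∀ i, L2 (Hs n) fun y => ∑ l, a i l y • pd l v y := fun i =>
    memLp_finsetSum _ fun l _ => MemLp.of_le_mul (c := L) (hz.2 l)
      ((ha.sm i l).continuous.aestronglyMeasurable.smul (hz.2 l).1) (ae_of_all _ fun y => by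
        rw [norm_smul]
        exact mul_le_mul_of_nonneg_right (ha.bd i l y) (norm_nonneg _))
  refine ⟨2 / c * (n ^ 2 * L ^ 2 / c * (∑ l, ∫ z in Hs n, ‖pd l v z‖ ^ 2) +
    (∫ z in Hs n, ‖dv a v z‖ ^ 2) / c), fun t i => ?_⟩
  rcases eq_or_ne t 0 with rfl | ht
  · simp
  obtain ⟨g1, g2⟩ := gs_dq hj t hv hz
  have ps := pd_shift hj t hv.1
  generalize hφ : (fun z => v (z + t • bv j) - v z) = φ at g1 g2 ps
  have lφ := g1.l2 g2
  have eG : EqOn (fun z => ∑ i, pd i (fun y => ∑ l, a i l (y + t • bv j) • pd l v (y + t • bv j) -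
      ∑ l, a i l y • pd l v y) z) (fun z => dv a v (z + t • bv j) - dv a v z) (Hs n) := fun z h => by
    simp only [dv, ← Finset.sum_sub_distrib (f := fun i => pd i _ _)]
    exact Finset.sum_congr rfl fun i _ => pd_shift hj t (sX i) i h
  have h1 := ibp (fun i => REn_sm hj t (sX i)) (fun i => REn_dq hj t (lX i))
    (REn_congr (REn_dq hj t hG) eG) g1 g2
  have h2 : ∫ z in Hs n, ⟪∑ i, pd i (fun y => ∑ l, a i l (y + t • bv j) • pd l v (y + t • bv j) -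
      ∑ l, a i l y • pd l v y) z, φ z⟫ = ∫ z in Hs n, ⟪dv a v z, φ (z + (-t) • bv j) - φ z⟫ := by
    rw [setIntegral_congr_fun ms (g := fun z => ⟪dv a v (z + t • bv j), φ z⟫ - ⟪dv a v z, φ z⟫)
      fun z h => by simp only [← inner_sub_left]; exact congrArg (⟪·, φ z⟫) (eG h)]
    simp only [inner_sub_right]
    rw [integral_sub ((hG.shift hj t).inner lφ) (hG.inner lφ),
      integral_sub (hG.inner (lφ.shift hj _)) (hG.inner lφ),
      ← int_shift hj t fun z => ⟪dv a v z, φ (z + (-t) • bv j)⟫]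
    simp only [neg_smul, add_neg_cancel_right]
  have t2 : 0 < t ^ 2 := by positivity
  have lψ := REn_dq hj (-t) lφ
  have h3 : -∫ z in Hs n, ⟪dv a v z, φ (z + (-t) • bv j) - φ z⟫ ≤
      c / (4 * t ^ 2) * (∫ z in Hs n, ‖φ (z + (-t) • bv j) - φ z‖ ^ 2) +
        t ^ 2 / c * ∫ z in Hs n, ‖dv a v z‖ ^ 2 := by
    rw [← integral_neg, ← integral_const_mul, ← integral_const_mul,
      ← integral_add (lψ.sq.const_mul _) (hG.sq.const_mul _)]
    refine integral_mono (hG.inner lψ).neg ((lψ.sq.const_mul _).add (hG.sq.const_mul _)) fun z => ?_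
    refine ((neg_le_abs _).trans (abs_real_inner_le_norm _ _)).trans
      ((REn_am (δ := c / (4 * t ^ 2)) (by positivity) _ _).trans_eq ?_)
    field_simp
  have h4 := dq_le hj g1.1 lφ (g2.2 j) (-t)
  have hE : ∀ i, ∫ z in Hs n, ‖pd i φ z‖ ^ 2 ≤ ∑ i, ∫ z in Hs n, ‖pd i φ z‖ ^ 2 := fun i =>
    Finset.single_le_sum (f := fun i => ∫ z in Hs n, ‖pd i φ z‖ ^ 2)
      (fun i _ => integral_nonneg fun z => sq_nonneg _) (Finset.mem_univ i)
  have i1 := integrable_finsetSum Finset.univ fun i _ => (g2.2 i).sq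
  have i2 := integrable_finsetSum Finset.univ fun i _ => (hz.2 i).sq
  have h5 := setIntegral_mono_on ((i1.const_mul (3 / 4 * c)).sub
    (i2.const_mul (n ^ 2 * L ^ 2 / c * t ^ 2)))
    (integrable_finsetSum Finset.univ fun i _ => (REn_dq hj t (lX i)).inner (g2.2 i)) ms
    fun z h => by
      have := REn_pt ha z (t • bv j) (fun i => pd i φ z) fun l => pd l v z
      simpa only [REn_norm, sq_abs, ps _ h, sub_add_cancel, Pi.sub_apply] using this
  simp only [Pi.sub_apply] at h5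
  rw [integral_sub (i1.const_mul _) (i2.const_mul _), integral_const_mul, integral_const_mul,
    integral_finsetSum _ fun i _ => (g2.2 i).sq, integral_finsetSum _ fun i _ => (hz.2 i).sq,
    h1, h2] at h5
  have h6 : c / (4 * t ^ 2) * (∫ z in Hs n, ‖φ (z + (-t) • bv j) - φ z‖ ^ 2) ≤
      c / 4 * ∑ i, ∫ z in Hs n, ‖pd i φ z‖ ^ 2 := by
    refine (mul_le_mul_of_nonneg_left (h4.trans (mul_le_mul_of_nonneg_left (hE j) (sq_nonneg _)))
      (by positivity)).trans_eq ?_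
    field_simp
  rw [← setIntegral_congr_fun ms (f := fun z => ‖pd i φ z‖ ^ 2) fun z h => by simp only [ps i h]]
  refine (hE i).trans ?_
  generalize ∑ i, ∫ z in Hs n, ‖pd i φ z‖ ^ 2 = E at h5 h6 ⊢
  generalize ∑ l, ∫ z in Hs n, ‖pd l v z‖ ^ 2 = A at h5 ⊢
  generalize ∫ z in Hs n, ‖dv a v z‖ ^ 2 = B at h3 ⊢
  have h7 : c / 2 * E ≤ (n ^ 2 * L ^ 2 / c * A + B / c) * t ^ 2 := by
    have : t ^ 2 / c * B = B / c * t ^ 2 := by ring
    linarith
  rw [mul_assoc, div_mul_eq_mul_div, le_div_iff₀ hc]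
  linarith

end Vale.Agent.P088.Rg
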