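import Vale.Agent.P088R.RSol
import Vale.Agent.P088R.RVol
import Vale.Agent.P088F.Final
import Vale.Agent.P088.Bridge

/-! P088: the theorem without assumed solution maps. -/

open MeasureTheory Set
open scoped Manifold ContDiff

namespace Vale.Agent.P088

variable {n N : ℕ} [NeZero n] {M : Type} [TopologicalSpace M]
  [ChartedSpace (EuclideanHalfSpace n) M] [IsManifold (𝓡∂ n) ∞ M] [T2Space M] [CompactSpace M]
  [MeasurableSpace M] [BorelSpace M]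

theorem form_uniq {g : Met (𝓡∂ n) M} {A : Conn (𝓡∂ n) M N} {μ μ' : Measure M}
    {f h u w u' w' : M → Fb N} (h2 : IsVol g μ) (a1 : IsVol g μ') (s1 : IsSol g μ A f u)
    (s2 : IsSol g μ A h w) (a2 : IsSol g μ' A f u') (a3 : IsSol g μ' A h w') :
    form g μ' A u' w' = form g μ A u w := by
  obtain rfl := a1.unique h2
  rw [Gl.isSol_form h2 a2 a3.smooth s2.smooth (a3.bd.trans s2.bd.symm), ← Gl.GXf_conj,
    Gl.isSol_form h2 s2 a2.smooth s1.smooth (a2.bd.trans s1.bd.symm), Gl.GXf_conj]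

variable [ConnectedSpace M] {Γ : Set M} (hΓ : ∃ O : Set M, IsOpen O ∧ Γ = O ∩ (𝓡∂ n).boundary M)
  (hne : Γ.Nonempty)
include hΓ hne

theorem exists_data (g : Met (𝓡∂ n) M) (A : Conn (𝓡∂ n) M N) : ∃ μ, IsVol g μ ∧
    ∀ f, ContMDiff (𝓡∂ n) 𝓘(ℝ, Fb N) ∞ f → ∃ u, IsSol g μ A f u := by
  obtain ⟨μ, h⟩ := Rg.exists_vol g
  obtain ⟨p, hp⟩ := hne
  obtain ⟨O, -, e⟩ := hΓ
  exact ⟨μ, h, fun f hf => Rg.exists_sol h A (e ▸ hp).2 hf⟩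

theorem working2 (hn : 3 ≤ n) (hN : 1 ≤ N) (g₁ g₂ : Met (𝓡∂ n) M) (A₁ A₂ : Conn (𝓡∂ n) M N)
    (hD : ∀ f h μ u w, IsTest (𝓡∂ n) Γ f → IsTest (𝓡∂ n) Γ h → IsVol g₁ μ → IsSol g₁ μ A₁ f u →
      IsSol g₁ μ A₁ h w → ∃ μ' u' w', IsVol g₂ μ' ∧ IsSol g₂ μ' A₂ f u' ∧ IsSol g₂ μ' A₂ h w' ∧
        form g₁ μ A₁ u w = form g₂ μ' A₂ u' w') :
    Concl Γ g₁ g₂ A₁ A₂ := by
  obtain ⟨μ₁, h1, s₁⟩ := exists_data hΓ hne g₁ A₁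
  obtain ⟨μ₂, h2, s₂⟩ := exists_data hΓ hne g₂ A₂
  choose! S₁ s₁ using s₁
  choose! S₂ s₂ using s₂
  refine working hn hN Γ hΓ hne g₁ g₂ μ₁ μ₂ h1 h2 A₁ A₂ S₁ S₂ (fun f hf => s₁ f hf.1)
    (fun f hf => s₂ f hf.1) fun f h hf hh => ?_
  obtain ⟨μ', u', w', a1, a2, a3, a4⟩ := hD f h μ₁ _ _ hf hh h1 (s₁ f hf.1) (s₁ h hh.1)
  exact a4.trans (form_uniq h2 a1 (s₂ f hf.1) (s₂ h hh.1) a2 a3)

end Vale.Agent.P088
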