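import Vale.Agent.P088R.RCut

/-! P088, boundary regularity: global coefficients.
Hints: `a' i j = χ * a i j + (1 - χ) * δ i j` with `χ` from `exists_cut` (values in `[0, 1]`, `tsupport χ ⊆ ball 0 r` compact).
Ellipticity: on the compact `tsupport χ` the smallest eigenvalue is bounded below (compactness of
`tsupport χ ×ˢ sphere`, or adapt `Geo.un_of_compact` in P088F/GXp2; vector valued case via `ipm_basis`, `ipm_nonneg`
applied to the matrix minus `c • 1`). Lipschitz: `a' - δ` is smooth with compact support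
(`ContDiff.lipschitzWith_of_hasCompactSupport`). -/

open MeasureTheory Set Filter Metric Topology
open scoped ContDiff ENNReal RealInnerProductSpace

noncomputable section

namespace Vale.Agent.P088.Rg

open Gl
open B (pd Hs)

variable {n : ℕ} [NeZero n] {V : Type} [NormedAddCommGroup V] [InnerProductSpace ℝ V]
  [FiniteDimensional ℝ V] {u v w φ ψ : Ec n → V} {r ρ R : ℝ} {k : ℕ} {s : Set (Ec n)}
  {a : Fin n → Fin n → Ec n → ℝ} {c L : ℝ} {j : Fin n}

omit [NeZero n] in
theorem RGl_ell (V : Type) [NormedAddCommGroup V] [InnerProductSpace ℝ V] [FiniteDimensional ℝ V]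
    (ha : Cf r a) {K : Set (Ec n)} (hK : IsCompact K) (hs : K ⊆ ball 0 r) : ∃ c : ℝ, 0 < c ∧
      ∀ z ∈ K, ∀ X : Fin n → V, c * ∑ i, ‖X i‖ ^ 2 ≤ ∑ i, ∑ j, a i j z * ⟪X j, X i⟫ := by
  haveI : ProperSpace (Fin n → V) := FiniteDimensional.proper_real _
  have hc : ContinuousOn (fun p : Ec n × (Fin n → V) => ∑ i, ∑ j, a i j p.1 * ⟪p.2 j, p.2 i⟫)
      (K ×ˢ sphere 0 1) := by
    refine continuousOn_finset_sum _ fun i _ => continuousOn_finset_sum _ fun j _ => ?_
    refine ((ha.sm i j).continuousOn.comp continuousOn_fst fun p hp => hs hp.1).mul ?_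
    exact Continuous.continuousOn (by fun_prop)
  obtain ⟨c, hc0, H⟩ := (hK.prod (isCompact_sphere (0 : Fin n → V) 1)).exists_forall_le' hc
    (a := 0) fun p hp => by
      have h1 := ha.pos _ (hs hp.1)
      have e : ∑ i, ∑ j, a i j p.1 * ⟪p.2 j, p.2 i⟫ =
          ipm (Matrix.of fun i j => a i j p.1) p.2 p.2 := by
        simp only [ipm, Matrix.of_apply, real_inner_comm]
      rw [e]
      refine lt_of_le_of_ne (ipm_nonneg h1 _) fun h => ?_
      have h2 : p.2 = 0 := funext (ipm_eq_zero h1 h.symm)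
      have h3 := hp.2
      rw [h2] at h3
      simp at h3
  refine ⟨c / (n + 1), by positivity, fun z hz X => ?_⟩
  rcases eq_or_ne X 0 with rfl | hX
  · simp
  have hn : 0 < ‖X‖ := norm_pos_iff.2 hX
  have h1 := H (z, ‖X‖⁻¹ • X) ⟨hz, by simp [norm_smul, hn.ne']⟩
  have h2 : ∑ i, ∑ j, a i j z * ⟪X j, X i⟫ =
      ‖X‖ ^ 2 * ∑ i, ∑ j, a i j z * ⟪(‖X‖⁻¹ • X) j, (‖X‖⁻¹ • X) i⟫ := by
    simp only [Finset.mul_sum, Pi.smul_apply, real_inner_smul_left, real_inner_smul_right]
    refine Finset.sum_congr rfl fun i _ => Finset.sum_congr rfl fun j _ => ?_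
    field_simp
  have h3 : ∑ i, ‖X i‖ ^ 2 ≤ (n + 1) * ‖X‖ ^ 2 :=
    calc _ ≤ ∑ _i : Fin n, ‖X‖ ^ 2 :=
          Finset.sum_le_sum fun i _ => pow_le_pow_left₀ (norm_nonneg _) (norm_le_pi_norm X i) 2
      _ = n * ‖X‖ ^ 2 := by simp
      _ ≤ _ := by nlinarith [sq_nonneg ‖X‖]
  rw [h2]
  calc _ ≤ c / (n + 1) * ((n + 1) * ‖X‖ ^ 2) := by gcongr
    _ = ‖X‖ ^ 2 * c := by field_simp
    _ ≤ _ := by gcongr

theorem Cf.glob (V : Type) [NormedAddCommGroup V] [InnerProductSpace ℝ V] [FiniteDimensional ℝ V]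
    (ha : Cf r a) (h : ρ < r) : ∃ (a' : Fin n → Fin n → Ec n → ℝ) (c L : ℝ), Cg V a' c L ∧
      ∀ i j, EqOn (a' i j) (a i j) (ball 0 ρ) := by
  obtain ⟨χ, h1, h2, h3, h4, h5⟩ := exists_cut (isCompact_closedBall (0 : Ec n) ρ) isOpen_ball
    (closedBall_subset_ball h)
  obtain ⟨c, hc, H⟩ := RGl_ell V ha h2.isCompact h3
  obtain ⟨b, hb⟩ : ∃ b : Fin n → Fin n → Ec n → ℝ,
      b = fun i j z => χ z * (a i j z - if i = j then 1 else 0) := ⟨_, rfl⟩
  have b1 : ∀ i j, ContDiff ℝ ∞ (b i j) := fun i j => contDiff_iff_contDiffAt.2 fun z => by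
    rw [hb]
    by_cases hz : z ∈ tsupport χ
    · exact h1.contDiffAt.mul
        (((ha.sm i j).contDiffAt (isOpen_ball.mem_nhds (h3 hz))).sub contDiffAt_const)
    · refine (contDiffAt_const (c := (0 : ℝ))).congr_of_eventuallyEq ?_
      filter_upwards [notMem_tsupport_iff_eventuallyEq.1 hz] with y hy
      rw [hy, Pi.zero_apply, zero_mul]
  have b2 : ∀ i j, HasCompactSupport (b i j) := fun i j => by
    rw [hb]
    exact h2.mul_right
  have b3 : ∀ i j, ∃ L : ℝ, 0 ≤ L ∧ (∀ z, |b i j z| ≤ L) ∧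
      ∀ z w, |b i j (z + w) - b i j z| ≤ L * ‖w‖ := fun i j => by
    obtain ⟨A, hA⟩ := (b2 i j).exists_bound_of_continuous (b1 i j).continuous
    obtain ⟨B, hB⟩ := ContDiff.lipschitzWith_of_hasCompactSupport (b2 i j) (b1 i j) (by simp)
    refine ⟨|A| + B, by positivity, fun z => ?_, fun z w => ?_⟩
    · exact (hA z).trans ((le_abs_self A).trans (le_add_of_nonneg_right B.2))
    · have := hB.dist_le_mul (z + w) z
      rw [Real.dist_eq, dist_eq_norm, add_sub_cancel_left] at this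
      exact this.trans (mul_le_mul_of_nonneg_right (le_add_of_nonneg_left (abs_nonneg _))
        (norm_nonneg _))
  choose L L0 L1 L2 using b3
  have L3 : ∀ i j, L i j ≤ ∑ i, ∑ j, L i j := fun i j =>
    (Finset.single_le_sum (fun j _ => L0 i j) (Finset.mem_univ j)).trans
      (Finset.single_le_sum (f := fun i => ∑ j, L i j)
        (fun i _ => Finset.sum_nonneg fun j _ => L0 i j) (Finset.mem_univ i))
  refine ⟨fun i j z => (if i = j then 1 else 0) + b i j z, min c 1, 1 + ∑ i, ∑ j, L i j,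
    ⟨fun i j => contDiff_const.add (b1 i j), lt_min hc one_pos, fun z X => ?_, fun i j z => ?_,
      fun i j z w => ?_⟩, fun i j z hz => ?_⟩
  · have e : ∑ i, ∑ j, ((if i = j then 1 else 0) + b i j z) * ⟪X j, X i⟫ =
        (1 - χ z) * ∑ i, ‖X i‖ ^ 2 + χ z * ∑ i, ∑ j, a i j z * ⟪X j, X i⟫ := by
      rw [hb, Finset.mul_sum, Finset.mul_sum, ← Finset.sum_add_distrib]
      refine Finset.sum_congr rfl fun i _ => ?_
      have e1 : ‖X i‖ ^ 2 = ∑ j, (if i = j then 1 else 0) * ⟪X j, X i⟫ := by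
        simp [real_inner_self_eq_norm_sq]
      rw [e1, Finset.mul_sum, Finset.mul_sum, ← Finset.sum_add_distrib]
      exact Finset.sum_congr rfl fun j _ => by ring
    have s0 : 0 ≤ ∑ i, ‖X i‖ ^ 2 := Finset.sum_nonneg fun i _ => sq_nonneg _
    have m1 := mul_le_mul_of_nonneg_right (min_le_left c 1) s0
    have m2 := mul_le_mul_of_nonneg_right (min_le_right c 1) s0
    rw [e]
    by_cases hz : z ∈ tsupport χ
    · have m3 := mul_le_mul_of_nonneg_left (m1.trans (H z hz X)) (h5 z).1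
      have m4 := mul_le_mul_of_nonneg_left m2 (sub_nonneg.2 (h5 z).2)
      linarith
    · rw [image_eq_zero_of_notMem_tsupport hz]
      linarith
  · refine (abs_add_le _ _).trans (add_le_add ?_ ((L1 i j z).trans (L3 i j)))
    split_ifs <;> simp
  · rw [add_sub_add_left_eq_sub]
    exact (L2 i j z w).trans (mul_le_mul_of_nonneg_right
      ((L3 i j).trans (le_add_of_nonneg_left zero_le_one)) (norm_nonneg _))
  · simp only [hb, (h4 z (ball_subset_closedBall hz)).self_of_nhds]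
    ring

end Vale.Agent.P088.Rg
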