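import Vale.Agent.P088R.RDefs

/-! P088, boundary regularity: calculus of the classes `HS`, `Hk`.
Hints: induction on `k` generalizing the functions; `pd_congr`, `pd_sm`; Leibniz rule `fderiv_clm_apply`;
a continuous function on the compact `closedBall 0 ρ` is bounded (`IsCompact.exists_bound_of_continuousOn`),
`MemLp.of_le_mul` / `MemLp.of_bound`; `up n ρ` has finite measure; prove `HS` versions on `up n ρ` first. -/

open MeasureTheory Set Filter Metric Topology
open scoped ContDiff ENNReal RealInnerProductSpace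

noncomputable section

namespace Vale.Agent.P088.Rg

open Gl
open B (pd Hs)

variable {n : ℕ} [NeZero n] {V : Type} [NormedAddCommGroup V] [InnerProductSpace ℝ V]
  [FiniteDimensional ℝ V] {u v w φ ψ : Ec n → V} {r ρ R : ℝ} {k : ℕ} {s : Set (Ec n)}
  {a : Fin n → Fin n → Ec n → ℝ} {c L : ℝ} {j : Fin n}

variable {W : Type} [NormedAddCommGroup W] [InnerProductSpace ℝ W] [FiniteDimensional ℝ W]

omit [NeZero n] in
theorem RHk_da {E : Type} [NormedAddCommGroup E] [NormedSpace ℝ E] {f : Ec n → E} {z : Ec n}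
    (hs : IsOpen s) (h : ContDiffOn ℝ ∞ f s) (hz : z ∈ s) : DifferentiableAt ℝ f z :=
  (h.contDiffAt (hs.mem_nhds hz)).differentiableAt (by simp)

theorem RHk_bd {E : Type} [NormedAddCommGroup E] [NormedSpace ℝ E] {f : Ec n → E}
    (h : ContDiffOn ℝ ∞ f (ball 0 r)) (hρ : ρ < r) : ∃ C, ∀ z ∈ up n ρ, ‖f z‖ ≤ C := by
  obtain ⟨C, hC⟩ := (isCompact_closedBall (0 : Ec n) ρ).exists_bound_of_continuousOn
    (h.continuousOn.mono (closedBall_subset_ball hρ))
  exact ⟨C, fun z hz => hC z (ball_subset_closedBall hz.1)⟩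

theorem HS.congr (hs : IsOpen s) (h : HS k s u) (e : EqOn v u s) : HS k s v := by
  induction k generalizing u v with
  | zero => exact MemLp.ae_eq ((ae_restrict_mem hs.measurableSet).mono fun z hz => (e hz).symm) h
  | succ k ih =>
    exact ⟨MemLp.ae_eq ((ae_restrict_mem hs.measurableSet).mono fun z hz => (e hz).symm) h.1,
      fun j => ih (h.2 j) (pd_congr hs e j)⟩

theorem HS.mono {t : Set (Ec n)} (h : HS k s u) (e : t ⊆ s) : HS k t u := by
  induction k generalizing u with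
  | zero => exact MemLp.mono_measure (Measure.restrict_mono e le_rfl) h
  | succ k ih => exact ⟨MemLp.mono_measure (Measure.restrict_mono e le_rfl) h.1, fun j => ih (h.2 j)⟩

theorem HS.succ (h : HS (k + 1) s u) : HS k s u := by
  induction k generalizing u with
  | zero => exact h.1
  | succ k ih => exact ⟨h.1, fun j => ih (h.2 j)⟩

theorem Hk.congr (h : Hk k r u) (e : EqOn v u (up n r)) : Hk k r v := by
  exact ⟨h.1.congr e, fun ρ hρ => (h.2 ρ hρ).congr (isOpen_up' n ρ) (e.mono (up_mono hρ.le))⟩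

theorem Hk.succ (h : Hk (k + 1) r u) : Hk k r u := by
  exact ⟨h.1, fun ρ hρ => (h.2 ρ hρ).succ⟩

theorem Hk.le {m : ℕ} (h : Hk m r u) (hk : k ≤ m) : Hk k r u := by
  induction hk with
  | refl => exact h
  | step _ ih => exact ih h.succ

theorem Hk.pd (h : Hk (k + 1) r u) (j : Fin n) : Hk k r (pd j u) := by
  exact ⟨pd_sm (isOpen_up' n r) h.1 j, fun ρ hρ => (h.2 ρ hρ).2 j⟩

theorem Hk.of_pd (h0 : Hk 0 r u) (h : ∀ j, Hk k r (B.pd j u)) : Hk (k + 1) r u := by
  exact ⟨h0.1, fun ρ hρ => ⟨h0.2 ρ hρ, fun j => (h j).2 ρ hρ⟩⟩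

theorem Hk.add (h : Hk k r u) (h' : Hk k r v) : Hk k r fun z => u z + v z := by
  have h0 : ∀ {u v : Ec n → V}, Hk 0 r u → Hk 0 r v → Hk 0 r fun z => u z + v z := fun h h' =>
    ⟨h.1.add h'.1, fun ρ hρ => MemLp.add (h.2 ρ hρ) (h'.2 ρ hρ)⟩
  induction k generalizing u v with
  | zero => exact h0 h h'
  | succ k ih =>
    refine Hk.of_pd (h0 (h.le k.succ.zero_le) (h'.le k.succ.zero_le)) fun j =>
      (ih (h.pd j) (h'.pd j)).congr fun z hz => ?_
    simp only [B.pd]
    rw [fderiv_fun_add (RHk_da (isOpen_up' n r) h.1 hz) (RHk_da (isOpen_up' n r) h'.1 hz)]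
    rfl

theorem Hk.app {T : Ec n → V →L[ℝ] W} (hT : ContDiffOn ℝ ∞ T (ball 0 r)) (h : Hk k r u) :
    Hk k r fun z => T z (u z) := by
  have h0 : ∀ {T : Ec n → V →L[ℝ] W} {u : Ec n → V}, ContDiffOn ℝ ∞ T (ball 0 r) → Hk 0 r u →
      Hk 0 r fun z => T z (u z) := by
    intro T u hT h
    have h1 : ContDiffOn ℝ ∞ (fun z => T z (u z)) (up n r) := (hT.mono inter_subset_left).clm_apply h.1
    refine ⟨h1, fun ρ hρ => ?_⟩
    obtain ⟨C, hC⟩ := RHk_bd hT hρ
    refine MemLp.of_le_mul (c := C) (h.2 ρ hρ) ((h1.continuousOn.mono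
      (up_mono hρ.le)).aestronglyMeasurable (isOpen_up' n ρ).measurableSet) ?_
    filter_upwards [ae_restrict_mem (isOpen_up' n ρ).measurableSet] with z hz
    exact (T z).le_of_opNorm_le (hC z hz) _
  induction k generalizing T u with
  | zero => exact h0 hT h
  | succ k ih =>
    refine Hk.of_pd (h0 hT (h.le k.succ.zero_le)) fun j =>
      ((ih (pd_sm isOpen_ball hT j) h.succ).add (ih hT (h.pd j))).congr fun z hz => ?_
    simp only [B.pd]
    rw [fderiv_clm_apply (RHk_da isOpen_ball hT hz.1) (RHk_da (isOpen_up' n r) h.1 hz), add_comm]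
    rfl

theorem Hk.smul {b : Ec n → ℝ} (hb : ContDiffOn ℝ ∞ b (ball 0 r)) (h : Hk k r u) :
    Hk k r fun z => b z • u z := by
  exact Hk.app (T := fun z => b z • ContinuousLinearMap.id ℝ V) (hb.smul contDiffOn_const) h

theorem Hk.sub (h : Hk k r u) (h' : Hk k r v) : Hk k r fun z => u z - v z := by
  refine (h.add (h'.smul (b := fun _ => -1) contDiffOn_const)).congr fun z _ => ?_
  simp only [neg_smul, one_smul, sub_eq_add_neg]

theorem Hk.of_sm (h : ContDiffOn ℝ ∞ u (ball 0 r)) : Hk k r u := by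
  have h0 : ∀ {u : Ec n → V}, ContDiffOn ℝ ∞ u (ball 0 r) → Hk 0 r u := by
    intro u h
    refine ⟨h.mono inter_subset_left, fun ρ hρ => ?_⟩
    obtain ⟨C, hC⟩ := RHk_bd h hρ
    have : IsFiniteMeasure (volume.restrict (up n ρ)) :=
      isFiniteMeasure_restrict.2 ((measure_mono inter_subset_left).trans_lt measure_ball_lt_top).ne
    exact MemLp.of_bound ((h.continuousOn.mono (inter_subset_left.trans
      (ball_subset_ball hρ.le))).aestronglyMeasurable (isOpen_up' n ρ).measurableSet) C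
      ((ae_restrict_mem (isOpen_up' n ρ).measurableSet).mono hC)
  induction k generalizing u with
  | zero => exact h0 h
  | succ k ih => exact Hk.of_pd (h0 h) fun j => ih (pd_sm isOpen_ball h j)

theorem Hk.sum {ι : Type} (t : Finset ι) {f : ι → Ec n → V} (h : ∀ i ∈ t, Hk k r (f i)) :
    Hk k r fun z => ∑ i ∈ t, f i z := by
  classical
  induction t using Finset.induction_on with
  | empty =>
    simp only [Finset.sum_empty]
    exact Hk.of_sm contDiffOn_const
  | insert i t hi ih =>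
    simp only [Finset.sum_insert hi]
    exact (h i (Finset.mem_insert_self i t)).add (ih fun l hl => h l (Finset.mem_insert_of_mem hl))

/-- On `up n ρ` one has `0 < z 0 ≤ ‖z‖ < ρ`. -/
theorem Zk.h1 (h : Zk r u) : Hk 1 r u := by
  refine ⟨h.1, fun ρ hρ => ⟨?_, (h.2 ρ hρ).2⟩⟩
  refine MemLp.of_le_mul (c := ρ) (h.2 ρ hρ).1 ((h.1.continuousOn.mono
    (up_mono hρ.le)).aestronglyMeasurable (isOpen_up' n ρ).measurableSet) ?_
  filter_upwards [ae_restrict_mem (isOpen_up' n ρ).measurableSet] with z hz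
  have h1 : 0 < z 0 := hz.2
  have h2 : ‖z 0‖ ≤ ρ := (PiLp.norm_apply_le z 0).trans (mem_ball_zero_iff.1 hz.1).le
  calc ‖u z‖ = ‖z 0‖ * ‖(z 0)⁻¹ • u z‖ := by rw [← norm_smul, smul_inv_smul₀ h1.ne']
    _ ≤ _ := mul_le_mul_of_nonneg_right h2 (norm_nonneg _)

end Vale.Agent.P088.Rg
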