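import Vale.Agent.P088R.RDiv
import Vale.Agent.P088R.RCut

/-! P088, boundary regularity: integration by parts and the Hardy inequality.
Hints: `ibp`: `div_zero` with `Y i z = ⟪X i z, φ z⟫` (`fderiv_inner_apply`; products of two `L2` functions are
integrable: `MemLp.integrable_mul` on the norms, or `L2.integrable_inner` after `toLp`). `hardy`: `div_zero` with
`Y 0 z = (z 0)⁻¹ * ‖φ z‖ ^ 2`, `Y i = 0` otherwise; with `q = (z 0)⁻¹ • φ z` the divergence is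
`2 * ⟪q, pd 0 φ z⟫ - ‖q‖ ^ 2` and `2 * ⟪q, d⟫ ≤ ‖q‖ ^ 2 / 2 + 2 * ‖d‖ ^ 2`. -/

open MeasureTheory Set Filter Metric Topology
open scoped ContDiff ENNReal RealInnerProductSpace

noncomputable section

namespace Vale.Agent.P088.Rg

open Gl
open B (pd Hs)

variable {n : ℕ} [NeZero n] {V : Type} [NormedAddCommGroup V] [InnerProductSpace ℝ V]
  [FiniteDimensional ℝ V] {u v w φ ψ : Ec n → V} {r ρ R : ℝ} {k : ℕ} {s : Set (Ec n)}
  {a : Fin n → Fin n → Ec n → ℝ} {c L : ℝ} {j : Fin n}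

omit [FiniteDimensional ℝ V] in
theorem RIbp_pd {z : Ec n} (hz : z ∈ Hs n) (hφ : DifferentiableAt ℝ φ z) :
    pd 0 (fun z : Ec n => (z 0)⁻¹ * ⟪φ z, φ z⟫) z =
      2 * ⟪(z 0)⁻¹ • φ z, pd 0 φ z⟫ - ‖(z 0)⁻¹ • φ z‖ ^ 2 := by
  have h0 : z 0 ≠ 0 := ne_of_gt hz
  have h1 : HasFDerivAt (fun z : Ec n => (z 0)⁻¹)
      (-(z 0 ^ 2)⁻¹ • (EuclideanSpace.proj (0 : Fin n) : Ec n →L[ℝ] ℝ)) z :=
    (hasDerivAt_inv h0).comp_hasFDerivAt z
      (EuclideanSpace.proj (0 : Fin n) : Ec n →L[ℝ] ℝ).hasFDerivAt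
  have h2 : fderiv ℝ (fun z : Ec n => (z 0)⁻¹ * ⟪φ z, φ z⟫) z = _ :=
    (h1.mul (hφ.inner ℝ hφ).hasFDerivAt).fderiv
  have h3 : (EuclideanSpace.proj (0 : Fin n) : Ec n →L[ℝ] ℝ) (bv 0) = 1 := by simp [bv]
  rw [pd, h2, ← real_inner_self_eq_norm_sq]
  simp only [add_apply, smul_apply, smul_eq_mul, h3, fderiv_inner_apply ℝ hφ hφ,
    real_inner_smul_left, real_inner_smul_right, pd, real_inner_comm (φ z) (fderiv ℝ φ z (bv 0))]
  ring

omit [NeZero n] [FiniteDimensional ℝ V] in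
theorem L2.inner (hu : L2 s u) (hv : L2 s v) : IntegrableOn (fun z => ⟪u z, v z⟫) s := by
  exact Integrable.mono' ((MemLp.norm hu).integrable_mul (MemLp.norm hv))
    (AEStronglyMeasurable.inner hu.1 hv.1) (ae_of_all _ fun z => norm_inner_le_norm _ _)

omit [NeZero n] [FiniteDimensional ℝ V] in
theorem L2.sq (hu : L2 s u) : IntegrableOn (fun z => ‖u z‖ ^ 2) s := by
  exact (memLp_two_iff_integrable_sq_norm hu.1).1 hu

theorem ibp {X : Fin n → Ec n → V} (hX : ∀ i, ContDiffOn ℝ ∞ (X i) (Hs n)) (h1 : ∀ i, L2 (Hs n) (X i))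
    (h2 : L2 (Hs n) fun z => ∑ i, pd i (X i) z) (hφ : Gs R φ) (hz : ZS (Hs n) φ) :
    ∫ z in Hs n, ∑ i, ⟪X i z, pd i φ z⟫ = -∫ z in Hs n, ⟪∑ i, pd i (X i) z, φ z⟫ := by
  have hm : MeasurableSet (Hs n) := (isOpen_Hs n).measurableSet
  have e : ∀ z ∈ Hs n, ∑ i, pd i (fun y => ⟪X i y, φ y⟫) z =
      ∑ i, ⟪X i z, pd i φ z⟫ + ⟪∑ i, pd i (X i) z, φ z⟫ := fun z hz => by
    have hn := (isOpen_Hs n).mem_nhds hz
    rw [sum_inner, ← Finset.sum_add_distrib]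
    exact Finset.sum_congr rfl fun i _ => fderiv_inner_apply ℝ
      (((hX i).contDiffAt hn).differentiableAt (by simp))
      ((hφ.1.contDiffAt hn).differentiableAt (by simp)) _
  have i1 : IntegrableOn (fun z => ∑ i, ⟪X i z, pd i φ z⟫) (Hs n) :=
    integrable_finsetSum _ fun i _ => (h1 i).inner (hz.2 i)
  have i2 : IntegrableOn (fun z => ⟪∑ i, pd i (X i) z, φ z⟫) (Hs n) := h2.inner (hφ.l2 hz)
  have h := div_zero (R := R) (Y := fun i y => ⟪X i y, φ y⟫)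
    (fun i => ⟨(hX i).inner ℝ hφ.1, fun z hz => by simp only [hφ.2 z hz, inner_zero_right]⟩)
    (by simpa only [real_inner_smul_right] using (h1 0).inner hz.1)
    ((i1.add i2).congr_fun (fun z hz => (e z hz).symm) hm)
  rw [setIntegral_congr_fun hm e, integral_add i1 i2] at h
  exact eq_neg_of_add_eq_zero_left h

theorem hardy (hφ : Gs R φ) (hz : ZS (Hs n) φ) :
    ∫ z in Hs n, ‖(z 0)⁻¹ • φ z‖ ^ 2 ≤ 4 * ∫ z in Hs n, ‖pd 0 φ z‖ ^ 2 := by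
  have hm : MeasurableSet (Hs n) := (isOpen_Hs n).measurableSet
  let Y : Fin n → Ec n → ℝ := fun i => if i = 0 then fun z => (z 0)⁻¹ * ⟪φ z, φ z⟫ else 0
  have Y0 : Y 0 = fun z => (z 0)⁻¹ * ⟪φ z, φ z⟫ := if_pos rfl
  have Y1 : ∀ i, i ≠ 0 → Y i = 0 := fun i hi => if_neg hi
  have e : ∀ z ∈ Hs n, ∑ i, pd i (Y i) z =
      2 * ⟪(z 0)⁻¹ • φ z, pd 0 φ z⟫ - ‖(z 0)⁻¹ • φ z‖ ^ 2 := fun z hz => by
    rw [Finset.sum_eq_single 0 (fun i _ hi => by simp [Y1 i hi, pd]) (by simp), Y0]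
    exact RIbp_pd hz ((hφ.1.contDiffAt ((isOpen_Hs n).mem_nhds hz)).differentiableAt (by simp))
  have i1 := (hz.1.inner (hz.2 0)).const_mul 2
  have i2 := hz.1.sq
  have i3 := (hz.2 0).sq
  have hY : ∀ i, Gs R (Y i) := fun i => by
    by_cases hi : i = 0
    · rw [hi, Y0]
      refine ⟨ContDiffOn.mul (ContDiffOn.inv (by fun_prop) fun z hz => ne_of_gt hz)
        (hφ.1.inner ℝ hφ.1), fun z hz => ?_⟩
      simp only [hφ.2 z hz, inner_zero_right, mul_zero]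
    · rw [Y1 i hi]
      exact ⟨contDiffOn_const, fun _ _ => rfl⟩
  have h := div_zero hY
    (by simpa only [Y0, real_inner_smul_right, real_inner_smul_left] using hz.1.inner hz.1)
    (IntegrableOn.congr_fun (i1.sub i2) (fun z hz => (e z hz).symm) hm)
  rw [setIntegral_congr_fun hm e, integral_sub i1 i2] at h
  have h4 : ∫ z in Hs n, 2 * ⟪(z 0)⁻¹ • φ z, pd 0 φ z⟫ ≤
      ∫ z in Hs n, (2⁻¹ * ‖(z 0)⁻¹ • φ z‖ ^ 2 + 2 * ‖pd 0 φ z‖ ^ 2) :=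
    integral_mono i1 ((i2.const_mul _).add (i3.const_mul _)) fun z => by
      have h5 := real_inner_le_norm ((z 0)⁻¹ • φ z) (pd 0 φ z)
      have h6 := sq_nonneg (‖(z 0)⁻¹ • φ z‖ - 2 * ‖pd 0 φ z‖)
      dsimp only
      nlinarith
  rw [integral_add (i2.const_mul _) (i3.const_mul _), integral_const_mul (2⁻¹ : ℝ),
    integral_const_mul 2 fun z => ‖pd 0 φ z‖ ^ 2] at h4
  linarith

end Vale.Agent.P088.Rg
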