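import Vale.Agent.P088R.RDefs
import Vale.Agent.P088F.GXm
import Vale.Agent.P088F.GXr

/-! P088: the weak solution of the Dirichlet problem.
Hints: `min_seq`: `m = sInf` of `En (f + ζ)` over tests; `En (f + ζ k) ≤ m + 1 / (k + 1)`; parallelogram identity from `En_sub`,
`GXf_add`, `GXf_smul`, `GXf_conj`; first variation: `m ≤ En (f + ζ k + t • φ)` for complex `t` gives
`‖form (f + ζ k) φ‖ ^ 2 ≤ (En φ + 1) / (k + 1)`. `weak_sol`: `ζ k` is Cauchy in `Lp (Fb N) 2 μ` (`IsVol.finite`, `MemLp.toLp`, `GXq1_sq`),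
limit `w`; `GXm_rep (gr2 n N)` for `k = f + w` and source `0`, using `GXf_test` for `f + ζ k`. -/

open MeasureTheory Set Filter Bundle Metric Topology Matrix
open scoped Manifold ContDiff ENNReal NNReal

noncomputable section

namespace Vale.Agent.P088.Rg

open Gl
open B (pd Hs)

variable {n N : ℕ} [NeZero n] {M : Type} [TopologicalSpace M]
  [ChartedSpace (EuclideanHalfSpace n) M] [IsManifold (𝓡∂ n) ∞ M] [T2Space M] [CompactSpace M]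
  [MeasurableSpace M] [BorelSpace M] {g : Met (𝓡∂ n) M} {μ : Measure M} {A : Conn (𝓡∂ n) M N}
  {p : M} {f u : M → Fb N}

omit [NeZero n] in
theorem RMin_smul {H : Type} [TopologicalSpace H] {I : ModelWithCorners ℝ (Ec n) H} {M : Type}
    [TopologicalSpace M] [ChartedSpace H M] {u : M → Fb N} (hu : ContMDiff I 𝓘(ℝ, Fb N) ∞ u)
    (c : ℂ) : ContMDiff I 𝓘(ℝ, Fb N) ∞ (c • u) :=
  ((c • ContinuousLinearMap.id ℂ (Fb N)).restrictScalars ℝ).contDiff.comp_contMDiff hu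

omit [IsManifold (𝓡∂ n) ∞ M] [T2Space M] [CompactSpace M] [MeasurableSpace M] [BorelSpace M] in
theorem RMin_mt {O : Set M} (hu : MT (𝓡∂ n) O u) (hf : MT (𝓡∂ n) O f) (c : ℂ) :
    MT (𝓡∂ n) O (u + c • f) :=
  ⟨hu.1.add (RMin_smul hf.1 c), (tsupport_add _ _).trans (union_subset hu.2
    ((tsupport_smul_subset_right (fun _ => c) f).trans hf.2))⟩

theorem RMin_exp (hv : IsVol g μ) (hu : ContMDiff (𝓡∂ n) 𝓘(ℝ, Fb N) ∞ u)
    (hf : ContMDiff (𝓡∂ n) 𝓘(ℝ, Fb N) ∞ f) (c : ℂ) : En g μ A (u + c • f) =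
      En g μ A u + 2 * (c * form g μ A u f).re + ‖c‖ ^ 2 * En g μ A f := by
  have h1 := RMin_smul hf c
  have h2 := hu.add h1
  have e : ∀ w, ContMDiff (𝓡∂ n) 𝓘(ℝ, Fb N) ∞ w → form g μ A (u + c • f) w =
      form g μ A u w + (starRingEnd ℂ) c * form g μ A f w := fun w hw => by
    rw [GXf_add hv hu h1 hw, GXf_smul hf]
  unfold En
  rw [e _ h2, ← GXf_conj g μ A u (u + c • f), ← GXf_conj g μ A f (u + c • f), e _ hu, e _ hf,
    ← GXf_conj g μ A f u, Complex.sq_norm, Complex.normSq_apply]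
  simp only [map_add, map_mul, Complex.add_re, Complex.mul_re, Complex.conj_re, Complex.conj_im,
    Complex.add_im, Complex.mul_im]
  ring

theorem RMin_par (hv : IsVol g μ) (hu : ContMDiff (𝓡∂ n) 𝓘(ℝ, Fb N) ∞ u)
    (hf : ContMDiff (𝓡∂ n) 𝓘(ℝ, Fb N) ∞ f) {m : ℝ} (h : m ≤ En g μ A (u + (1 / 2 : ℂ) • f)) :
    En g μ A f ≤ 2 * En g μ A u + 2 * En g μ A (u + f) - 4 * m := by
  have h1 := RMin_exp (A := A) hv hu hf 1
  have h2 : ((1 / 2 : ℂ) * form g μ A u f).re = (form g μ A u f).re / 2 := by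
    simp [Complex.mul_re]
    ring
  rw [RMin_exp hv hu hf, h2] at h
  rw [one_smul, one_mul] at h1
  norm_num at h h1
  linarith

theorem RMin_var (hv : IsVol g μ) (hu : ContMDiff (𝓡∂ n) 𝓘(ℝ, Fb N) ∞ u)
    (hf : ContMDiff (𝓡∂ n) 𝓘(ℝ, Fb N) ∞ f) {m δ : ℝ} (h : ∀ c : ℂ, m ≤ En g μ A (u + c • f))
    (hδ : En g μ A u ≤ m + δ) : ‖form g μ A u f‖ ≤ √((En g μ A f + 1) * δ) := by
  have h0 : 0 ≤ En g μ A f := En_nonneg hv hf
  have h1 := h (((-(En g μ A f + 1)⁻¹ : ℝ) : ℂ) * (starRingEnd ℂ) (form g μ A u f))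
  rw [RMin_exp hv hu hf, mul_assoc, Complex.re_ofReal_mul, Complex.conj_mul', norm_mul,
    Complex.norm_conj, Complex.norm_real, mul_pow, Real.norm_eq_abs, sq_abs, ← Complex.ofReal_pow,
    Complex.ofReal_re] at h1
  refine Real.le_sqrt_of_sq_le ?_
  have hs : 0 < (En g μ A f + 1)⁻¹ := by positivity
  have h2 : (En g μ A f + 1) * (En g μ A f + 1)⁻¹ = 1 := mul_inv_cancel₀ (by positivity)
  generalize (En g μ A f + 1)⁻¹ = s at *
  have h3 := sq_nonneg ‖form g μ A u f‖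
  generalize ‖form g μ A u f‖ ^ 2 = b at *
  have h4 : s * b ≤ δ := by
    have h5 : (-s) ^ 2 * b * En g μ A f = s * b - s ^ 2 * b := by linear_combination s * b * h2
    linarith [mul_nonneg (sq_nonneg s) h3]
  calc b = (En g μ A f + 1) * (s * b) := by linear_combination (-b) * h2
    _ ≤ _ := mul_le_mul_of_nonneg_left h4 (by positivity)

theorem RMin_lim (C : ℝ) : Tendsto (fun k : ℕ => √(C * (1 / ((k : ℝ) + 1)))) atTop (𝓝 0) := by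
  simpa using ((tendsto_one_div_add_atTop_nhds_zero_nat (𝕜 := ℝ)).const_mul C).sqrt

theorem RMin_sq {X : Type} [MeasurableSpace X] {ν : Measure X} (f : Lp (Fb N) 2 ν) :
    ‖f‖ ^ 2 = ∫ x, ‖f x‖ ^ 2 ∂ν ∧
      ENNReal.ofReal (‖f‖ ^ 2) = ∫⁻ x, ENNReal.ofReal (‖f x‖ ^ 2) ∂ν := by
  have e : ‖f‖ ^ 2 = ∫ x, ‖f x‖ ^ 2 ∂ν := by
    rw [← real_inner_self_eq_norm_sq f, L2.inner_def]
    simp only [real_inner_self_eq_norm_sq]
  refine ⟨e, ?_⟩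
  rw [← ofReal_integral_eq_lintegral_ofReal
    ((memLp_two_iff_integrable_sq_norm (Lp.aestronglyMeasurable f)).1 (Lp.memLp f))
    (ae_of_all _ fun _ => sq_nonneg _), e]

theorem min_seq (hv : IsVol g μ) (A : Conn (𝓡∂ n) M N) (hf : ContMDiff (𝓡∂ n) 𝓘(ℝ, Fb N) ∞ f) :
    ∃ (ζ : ℕ → M → Fb N) (E : ℝ), (∀ k, MT (𝓡∂ n) ((𝓡∂ n).interior M) (ζ k) ∧ En g μ A (ζ k) ≤ E) ∧
      (∀ k l, En g μ A (fun x => ζ k x - ζ l x) ≤ 2 / (k + 1) + 2 / (l + 1)) ∧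
      ∀ φ, MT (𝓡∂ n) ((𝓡∂ n).interior M) φ →
        Tendsto (fun k => form g μ A (f + ζ k) φ) atTop (𝓝 0) := by
  obtain ⟨S, hS⟩ : ∃ S : Set ℝ,
      S = {e | ∃ ζ, MT (𝓡∂ n) ((𝓡∂ n).interior M) ζ ∧ En g μ A (f + ζ) = e} := ⟨_, rfl⟩
  have hne : S.Nonempty := hS ▸ ⟨_, 0, ⟨contMDiff_const, by simp⟩, rfl⟩
  have hb : BddBelow S := hS ▸ ⟨0, fun _ ⟨ζ, hζ, e⟩ => e ▸ En_nonneg hv (hf.add hζ.1)⟩
  have hm : ∀ ζ, MT (𝓡∂ n) ((𝓡∂ n).interior M) ζ → sInf S ≤ En g μ A (f + ζ) :=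
    fun ζ hζ => csInf_le hb (hS ▸ ⟨ζ, hζ, rfl⟩)
  have hx : ∀ k : ℕ, ∃ ζ, MT (𝓡∂ n) ((𝓡∂ n).interior M) ζ ∧
      En g μ A (f + ζ) ≤ sInf S + 1 / (k + 1) := fun k => by
    obtain ⟨e, he, h⟩ := exists_lt_of_csInf_lt hne
      (lt_add_of_pos_right _ (Nat.one_div_pos_of_nat (n := k)))
    obtain ⟨ζ, hζ, rfl⟩ := hS ▸ he
    exact ⟨ζ, hζ, h.le⟩
  choose ζ hζ hE using hx
  refine ⟨ζ, 2 * En g μ A f + 2 * (sInf S + 1), fun k => ⟨hζ k, ?_⟩, fun k l => ?_, fun φ hφ => ?_⟩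
  · have h1 := RMin_par (A := A) hv hf (hζ k).1
      (En_nonneg hv (hf.add (RMin_smul (hζ k).1 (1 / 2))))
    have h2 : 1 / ((k : ℝ) + 1) ≤ 1 := (Nat.one_div_le_one_div k.zero_le).trans (by simp)
    linarith [hE k]
  · have hd := RMin_mt (hζ k) (hζ l) (-1)
    have h1 := RMin_par (A := A) hv (hf.add (hζ l).1) hd.1
      ((hm _ (RMin_mt (hζ l) hd (1 / 2))).trans_eq (by rw [add_assoc]))
    have e : f + ζ l + (ζ k + (-1 : ℂ) • ζ l) = f + ζ k := by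
      rw [neg_one_smul]
      abel
    rw [e, neg_one_smul, ← sub_eq_add_neg] at h1
    have h2 := hE k
    have h3 := hE l
    rw [div_eq_mul_one_div 2, div_eq_mul_one_div 2]
    exact h1.trans (by linarith)
  · exact squeeze_zero_norm (fun k => RMin_var hv (hf.add (hζ k).1) hφ.1
      (fun c => (hm _ (RMin_mt (hζ k) hφ c)).trans_eq (by rw [add_assoc])) (hE k)) (RMin_lim _)

theorem weak_sol (hv : IsVol g μ) {K : ℝ} (hK : 0 ≤ K)
    (hP : ∀ ζ, MT (𝓡∂ n) ((𝓡∂ n).interior M) ζ → ∫ x, ‖ζ x‖ ^ 2 ∂μ ≤ K * En g μ A ζ)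
    (hf : ContMDiff (𝓡∂ n) 𝓘(ℝ, Fb N) ∞ f) :
    ∃ (u : M → Fb N) (E : ℝ), MW g μ A ((𝓡∂ n).interior M) u 0 ∧ MemLp u 2 μ ∧
      ∀ ε > 0, ∃ ζ, MT (𝓡∂ n) ((𝓡∂ n).interior M) ζ ∧ En g μ A ζ ≤ E ∧
        ∫⁻ x, ENNReal.ofReal (‖ζ x - (u x - f x)‖ ^ 2) ∂μ ≤ ENNReal.ofReal ε := by
  have := hv.finite
  obtain ⟨ζ, E, h1, h2, h3⟩ := min_seq hv A hf
  have mem : ∀ {w : M → Fb N}, ContMDiff (𝓡∂ n) 𝓘(ℝ, Fb N) ∞ w → MemLp w 2 μ := fun hw =>
    hw.continuous.memLp_of_hasCompactSupport (HasCompactSupport.of_compactSpace _)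
  obtain ⟨Y, hY⟩ : ∃ Y : ℕ → Lp (Fb N) 2 μ, ∀ k, Y k =ᵐ[μ] f + ζ k :=
    ⟨fun k => (mem (hf.add (h1 k).1.1)).toLp _, fun k => MemLp.coeFn_toLp _⟩
  have hc : CauchySeq Y := by
    refine cauchySeq_of_le_tendsto_0 _ (fun k l j hk hl => ?_) (RMin_lim (4 * K))
    have k1 := hP _ (RMin_mt (h1 k).1 (h1 l).1 (-1))
    rw [neg_one_smul, ← sub_eq_add_neg] at k1
    have k2 := k1.trans (mul_le_mul_of_nonneg_left (h2 k l) hK)
    have k3 : ‖Y k - Y l‖ ^ 2 = ∫ x, ‖(ζ k - ζ l) x‖ ^ 2 ∂μ := by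
      refine (RMin_sq _).1.trans (integral_congr_ae ?_)
      filter_upwards [Lp.coeFn_sub (Y k) (Y l), hY k, hY l] with x a b c
      simp only [a, Pi.sub_apply, b, c, Pi.add_apply, add_sub_add_left_eq_sub]
    have k4 := mul_le_mul_of_nonneg_left (Nat.one_div_le_one_div (α := ℝ) hk) hK
    have k5 := mul_le_mul_of_nonneg_left (Nat.one_div_le_one_div (α := ℝ) hl) hK
    rw [div_eq_mul_one_div 2, div_eq_mul_one_div 2] at k2
    rw [dist_eq_norm]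
    exact Real.le_sqrt_of_sq_le (by linarith)
  obtain ⟨W, hW⟩ := cauchySeq_tendsto_of_complete hc
  obtain ⟨u, hu, hu'⟩ := GXm_rep (gr2 n N) hv A (Lp.memLp W) (f := 0) contMDiff_const
    fun φ F hφ hF h => by
      have hF' := (mem hF.1).coeFn_toLp
      have e : ∀ {Z : Lp (Fb N) 2 μ} {z : M → Fb N}, Z =ᵐ[μ] z →
          inner ℂ Z ((mem hF.1).toLp F) = ∫ x, inner ℂ (z x) (F x) ∂μ := fun hz => by
        rw [L2.inner_def]
        refine integral_congr_ae ?_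
        filter_upwards [hz, hF'] with x a b
        rw [a, b]
      have k1 := hW.inner (𝕜 := ℂ) (tendsto_const_nhds (x := (mem hF.1).toLp F))
      rw [← e EventuallyEq.rfl, tendsto_nhds_unique k1 ((h3 φ hφ).congr fun k => by
        rw [e (hY k), GXf_test hφ hF h (hf.add (h1 k).1.1).contMDiffOn])]
      simp
  refine ⟨u, E, hu, (Lp.memLp W).ae_eq hu', fun ε hε => ?_⟩
  have k1 := ((tendsto_iff_norm_sub_tendsto_zero.1 hW).pow 2).eventually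
    (ge_mem_nhds (by simpa using hε : (0 : ℝ) ^ 2 < ε))
  obtain ⟨k, hk⟩ := k1.exists
  refine ⟨ζ k, (h1 k).1, (h1 k).2, Eq.trans_le (lintegral_congr_ae ?_)
    ((RMin_sq (Y k - W)).2.symm.trans_le (ENNReal.ofReal_le_ofReal hk))⟩
  filter_upwards [Lp.coeFn_sub (Y k) W, hY k, hu'] with x a b c
  rw [a, Pi.sub_apply, b, c, Pi.add_apply, add_comm (f x), ← sub_add, sub_add_eq_add_sub]

end Vale.Agent.P088.Rg
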