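import Vale.Agent.P088R.RTan

/-! P088, boundary regularity: all derivatives are square integrable.
Hints: `normal`: `Hk.of_pd` twice; for `i ≠ 0`, `pd i (pd 0 v) = pd 0 (pd i v)` (`pd_comm`, `Hk.congr`);
`pd 0 (pd 0 v) = (a 0 0)⁻¹ • (nd a v - ∑ over (i, l) ≠ (0, 0))`, `0 < a 0 0` by `Matrix.PosDef.diag_pos`.
`reg`: induction on `k` generalizing `v`; `k = 0`: `tan`, `Zk.h1`, `normal`; step: for `j ≠ 0`
`nd a (pd j v) = pd j (nd a v) - nd (fun i l => pd j (a i l)) v` on `up n r` (Leibniz, `pd_comm` twice).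
`reg_sys`: induction, `Hk (k + 1) r v` gives `Hk k r (nd a v)`. -/

open MeasureTheory Set Filter Metric Topology
open scoped ContDiff ENNReal RealInnerProductSpace

noncomputable section

namespace Vale.Agent.P088.Rg

open Gl
open B (pd Hs)

variable {n : ℕ} [NeZero n] {V : Type} [NormedAddCommGroup V] [InnerProductSpace ℝ V]
  [FiniteDimensional ℝ V] {u v w φ ψ : Ec n → V} {r ρ R : ℝ} {k : ℕ} {s : Set (Ec n)}
  {a : Fin n → Fin n → Ec n → ℝ} {c L : ℝ} {j : Fin n}

theorem normal (ha : Cf r a) (h0 : Hk 0 r v) (h00 : Hk 0 r (pd 0 v))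
    (h1 : ∀ j, j ≠ 0 → Hk (k + 1) r (pd j v)) (h2 : Hk k r (nd a v)) : Hk (k + 2) r v := by
  have ho := isOpen_up' n r
  have key : ∀ p : Fin n × Fin n, p ≠ (0, 0) → Hk k r (pd p.1 (pd p.2 v)) := by
    rintro ⟨i, l⟩ hp
    by_cases hl : l = 0
    · subst hl
      have hi : i ≠ 0 := fun hi => hp (by rw [hi])
      exact ((h1 i hi).pd 0).congr (pd_comm ho h0.1 i 0)
    · exact (h1 l hl).pd i
  refine Hk.of_pd h0 fun j => ?_
  by_cases hj : j = 0
  · subst hj
    refine Hk.of_pd h00 fun i => ?_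
    by_cases hi : i = 0
    · subst hi
      have hpos : ∀ z ∈ ball (0 : Ec n) r, a 0 0 z ≠ 0 := fun z hz =>
        ((ha.pos z hz).diag_pos (i := 0)).ne'
      have h3 := Hk.smul ((ha.sm 0 0).inv hpos) (h2.sub (Hk.sum (Finset.univ.erase (0, 0))
        (f := fun (p : Fin n × Fin n) z => a p.1 p.2 z • pd p.1 (pd p.2 v) z)
        fun p hp => Hk.smul (ha.sm p.1 p.2) (key p (Finset.ne_of_mem_erase hp))))
      refine h3.congr fun z hz => ?_
      have e : nd a v z = a 0 0 z • pd 0 (pd 0 v) z + ∑ p ∈ Finset.univ.erase ((0, 0) : Fin n × Fin n),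
          a p.1 p.2 z • pd p.1 (pd p.2 v) z := by
        rw [Finset.add_sum_erase Finset.univ
          (fun p : Fin n × Fin n => a p.1 p.2 z • pd p.1 (pd p.2 v) z) (Finset.mem_univ (0, 0)),
          Fintype.sum_prod_type]
        rfl
      show pd 0 (pd 0 v) z = (a 0 0 z)⁻¹ • (nd a v z - _)
      rw [e, add_sub_cancel_right, smul_smul, inv_mul_cancel₀ (hpos z hz.1), one_smul]
    · exact key (i, 0) fun h => hi (congrArg Prod.fst h)
  · exact h1 j hj

omit [FiniteDimensional ℝ V] in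
theorem RReg_leib (ha : Cf r a) (hv : ContDiffOn ℝ ∞ v (up n r)) (j : Fin n) {z : Ec n}
    (hz : z ∈ up n r) : nd a (pd j v) z = pd j (nd a v) z - nd (fun i l => pd j (a i l)) v z := by
  have ho := isOpen_up' n r
  have hd : ∀ i l, DifferentiableAt ℝ (pd i (pd l v)) z := fun i l =>
    ((pd_sm ho (pd_sm ho hv l) i).contDiffAt (ho.mem_nhds hz)).differentiableAt (by simp)
  have hda : ∀ i l, DifferentiableAt ℝ (a i l) z := fun i l =>
    ((ha.sm i l).contDiffAt (isOpen_ball.mem_nhds hz.1)).differentiableAt (by simp)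
  have H : HasFDerivAt (nd a v) (∑ i, ∑ l, (a i l z • fderiv ℝ (pd i (pd l v)) z
      + (fderiv ℝ (a i l) z).smulRight (pd i (pd l v) z))) z :=
    HasFDerivAt.fun_sum fun i _ => HasFDerivAt.fun_sum fun l _ =>
      (hda i l).hasFDerivAt.fun_smul (hd i l).hasFDerivAt
  have e1 : pd j (nd a v) z = ∑ i, ∑ l, (a i l z • pd j (pd i (pd l v)) z
      + pd j (a i l) z • pd i (pd l v) z) := by
    change fderiv ℝ (nd a v) z (bv j) = _
    rw [H.fderiv]
    simp only [ContinuousLinearMap.coe_sum', Finset.sum_apply, ContinuousLinearMap.add_apply,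
      ContinuousLinearMap.smul_apply, ContinuousLinearMap.smulRight_apply]
    rfl
  have e2 : ∀ i l, pd j (pd i (pd l v)) z = pd i (pd l (pd j v)) z := fun i l =>
    (pd_comm ho (pd_sm ho hv l) j i hz).trans (pd_congr ho (pd_comm ho hv j l) i hz)
  rw [e1]
  simp only [nd, e2, Finset.sum_add_distrib, add_sub_cancel_right]

theorem reg (ha : Cf r a) (hz : Zk r v) (h : Hk k r (nd a v)) : Hk (k + 2) r v := by
  induction k generalizing v with
  | zero => exact normal ha hz.h1.succ (hz.h1.pd 0) (fun j hj => (tan ha hj hz h).h1) h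
  | succ k ih =>
    have h2 := ih hz h.succ
    refine normal ha hz.h1.succ (hz.h1.pd 0) (fun j hj => ?_) h
    refine ih (tan ha hj hz (h.le (Nat.zero_le _))) ?_
    have h3 : Hk k r (nd (fun i l => pd j (a i l)) v) :=
      Hk.sum Finset.univ fun i _ => Hk.sum Finset.univ fun l _ =>
        Hk.smul (pd_sm isOpen_ball (ha.sm i l) j) ((h2.pd l).pd i)
    exact ((h.pd j).sub h3).congr fun z hz' => RReg_leib ha hz.1 j hz'

theorem reg_sys (ha : Cf r a) {T : Fin n → Ec n → V →L[ℝ] V} {S : Ec n → V →L[ℝ] V} {G : Ec n → V}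
    (hT : ∀ j, ContDiffOn ℝ ∞ (T j) (ball 0 r)) (hS : ContDiffOn ℝ ∞ S (ball 0 r))
    (hG : ContDiffOn ℝ ∞ G (ball 0 r)) (hz : Zk r v)
    (he : ∀ z ∈ up n r, nd a v z = ∑ j, T j z (pd j v z) + S z (v z) + G z) (k : ℕ) : Hk k r v := by
  have key : ∀ m, Hk (m + 1) r v := by
    intro m
    induction m with
    | zero => exact hz.h1
    | succ m ih =>
      refine reg ha hz ?_
      exact (((Hk.sum Finset.univ fun j _ => Hk.app (hT j) (ih.pd j)).add
        (Hk.app hS ih.succ)).add (Hk.of_sm hG)).congr he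
  exact (key k).succ

end Vale.Agent.P088.Rg
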