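import Vale.Agent.P088R.RCut

/-! P088, boundary regularity: the Sobolev inequality on the half space.
Hints: one dimensional step: for `z ∈ Hs n`, `‖w z‖ₑ ≤ ∫⁻ t, (Hs n).indicator (‖pd i w ·‖ₑ) (z with coordinate i set to t)`,
integrating along the ray `z + s • bv i`, `s ≥ 0`, which stays in `Hs n` (`w` vanishes far away). Iterate over a list `l`
of distinct coordinates with `lmarginal` (`∫⋯∫⁻_s`) on `Fin n → ℝ` (transport by `WithLp.toLp`,
`PiLp.volume_preserving_toLp`): induction on `l` generalizing `w`, `lmarginal_mono`, `lmarginal_insert`, `lmarginal_univ`.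
The `n`-fold derivative is `L2 (Hs n)` with bounded support, hence integrable. -/

open MeasureTheory Set Filter Metric Topology
open scoped ContDiff ENNReal RealInnerProductSpace

noncomputable section

namespace Vale.Agent.P088.Rg

open Gl
open B (pd Hs)

variable {n : ℕ} [NeZero n] {V : Type} [NormedAddCommGroup V] [InnerProductSpace ℝ V]
  [FiniteDimensional ℝ V] {u v w φ ψ : Ec n → V} {r ρ R : ℝ} {k : ℕ} {s : Set (Ec n)}
  {a : Fin n → Fin n → Ec n → ℝ} {c L : ℝ} {j : Fin n}

/-- The norm on the half space, in coordinates. -/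
def RSob_F (w : Ec n → V) (x : Fin n → ℝ) : ℝ≥0∞ :=
  (Hs n).indicator (fun z => ‖w z‖ₑ) (WithLp.toLp 2 x)

omit [FiniteDimensional ℝ V] in
theorem RSob_meas (hw : Gs R w) : Measurable ((Hs n).indicator fun z => ‖w z‖ₑ) := by
  classical
  rw [← piecewise_eq_indicator]
  exact ContinuousOn.measurable_piecewise hw.1.continuousOn.enorm continuousOn_const
    (isOpen_Hs n).measurableSet

omit [FiniteDimensional ℝ V] in
theorem RSob_measF (hw : Gs R w) : Measurable (RSob_F w) :=
  (RSob_meas hw).comp (PiLp.volume_preserving_toLp (Fin n)).measurable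

theorem RSob_one (hw : Gs R w) (i : Fin n) (x : Fin n → ℝ) :
    RSob_F w x ≤ ∫⁻ t, RSob_F (pd i w) (Function.update x i t) := by
  by_cases hx : (WithLp.toLp 2 x : Ec n) ∈ Hs n
  swap
  · rw [RSob_F, indicator_of_notMem hx]
    exact zero_le
  obtain ⟨γ, hγ⟩ : ∃ γ : ℝ → Ec n, γ = fun t => WithLp.toLp 2 x + (t - x i) • bv i := ⟨_, rfl⟩
  have e : ∀ t, γ t = WithLp.toLp 2 (Function.update x i t) := fun t => by
    ext l
    by_cases h : l = i
    · simp [hγ, bv, h]
    · simp [hγ, bv, h]
  have hd : ∀ t, HasDerivAt γ (bv i) t := fun t => by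
    rw [hγ]
    simpa using (((hasDerivAt_id' t).sub_const (x i)).smul_const (bv i)).const_add
      (WithLp.toLp 2 x : Ec n)
  have hm : ∀ t, x i ≤ t → γ t ∈ Hs n := fun t ht => by
    have h0 : 0 < x 0 := hx
    rw [e]
    change 0 < Function.update x i t 0
    by_cases h : 0 = i
    · subst h
      rw [Function.update_self]
      exact h0.trans_le ht
    · rwa [Function.update_of_ne h]
  have hT : x i ≤ max (x i) (R + 1) := le_max_left _ _
  have h1 : ∫ t in x i..max (x i) (R + 1), pd i w (γ t) = w (γ (max (x i) (R + 1))) - w (γ (x i)) := by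
    refine intervalIntegral.integral_eq_sub_of_hasDerivAt (f := fun t => w (γ t)) (fun t ht => ?_)
      (ContinuousOn.intervalIntegrable ?_)
    · rw [uIcc_of_le hT] at ht
      exact ((hw.1.contDiffAt ((isOpen_Hs n).mem_nhds (hm t ht.1))).differentiableAt
        (by simp)).hasFDerivAt.comp_hasDerivAt t (hd t)
    · rw [uIcc_of_le hT]
      exact (hw.pd i).1.continuousOn.comp (fun t _ => (hd t).continuousAt.continuousWithinAt)
        fun t ht => hm t ht.1
  have h2 : w (γ (max (x i) (R + 1))) = 0 := by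
    refine hw.2 _ (lt_of_lt_of_le ?_ (PiLp.norm_apply_le _ i))
    rw [e]
    change R < |Function.update x i (max (x i) (R + 1)) i|
    rw [Function.update_self]
    linarith [le_abs_self (max (x i) (R + 1)), le_max_right (x i) (R + 1)]
  rw [h2, zero_sub, e (x i), Function.update_eq_self, intervalIntegral.integral_of_le hT] at h1
  rw [RSob_F, indicator_of_mem hx, ← enorm_neg, ← h1]
  refine (enorm_integral_le_lintegral_enorm _).trans
    ((setLIntegral_mono' measurableSet_Ioc fun t ht => le_of_eq ?_).trans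
      (setLIntegral_le_lintegral _ _))
  rw [RSob_F, ← e, indicator_of_mem (hm t ht.1.le)]

theorem RSob_iter (S : Finset (Fin n)) : ∀ w : Ec n → V, Gs R w → HS S.card (Hs n) w →
    ∃ u : Ec n → V, Gs R u ∧ L2 (Hs n) u ∧ RSob_F w ≤ ∫⋯∫⁻_S, RSob_F u ∂fun _ => volume := by
  induction S using Finset.induction with
  | empty => exact fun w hw h => ⟨w, hw, h, (lmarginal_empty _ _).ge⟩
  | insert i S hi ih =>
    intro w hw h
    rw [Finset.card_insert_of_notMem hi] at h
    obtain ⟨u, h1, h2, h3⟩ := ih (pd i w) (hw.pd i) (h.2 i)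
    refine ⟨u, h1, h2, fun x => (RSob_one hw i x).trans ?_⟩
    rw [lmarginal_insert _ (RSob_measF h1) hi]
    exact lintegral_mono fun t => h3 _

theorem sob_glob (hw : Gs R w) (h : HS n (Hs n) w) : ∃ C : ℝ, ∀ z ∈ Hs n, ‖w z‖ ≤ C := by
  obtain ⟨u, h1, h2, h3⟩ := RSob_iter Finset.univ w hw (by rwa [Finset.card_univ, Fintype.card_fin])
  haveI : IsFiniteMeasure ((volume.restrict (Hs n)).restrict (closedBall (0 : Ec n) R)) :=
    isFiniteMeasure_restrict.2
      (ne_top_of_le_ne_top measure_closedBall_lt_top.ne (Measure.restrict_apply_le _ _))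
  have hi : Integrable u (volume.restrict (Hs n)) :=
    IntegrableOn.integrable_of_forall_notMem_eq_zero (s := closedBall 0 R)
      ((MemLp.restrict _ h2).integrable one_le_two) fun z hz => h1.2 z (by simpa using hz)
  have e : ∫⁻ x, RSob_F u x ∂Measure.pi (fun _ => volume) = ∫⁻ z in Hs n, ‖u z‖ₑ := by
    rw [← lintegral_indicator (isOpen_Hs n).measurableSet]
    exact (PiLp.volume_preserving_toLp (Fin n)).lintegral_comp (RSob_meas h1)
  refine ⟨(∫⁻ z in Hs n, ‖u z‖ₑ).toReal, fun z hz => ?_⟩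
  have h4 := h3 z.ofLp
  rw [lmarginal_univ, e, RSob_F, indicator_of_mem hz] at h4
  exact (toReal_enorm _).ge.trans (ENNReal.toReal_mono hi.2.ne h4)

theorem sob (h : Hk n r v) (h0 : ρ < r) : ∃ C : ℝ, ∀ z ∈ up n ρ, ‖v z‖ ≤ C := by
  obtain ⟨χ, R, hR, h1, h2, h3, -⟩ := exists_chi (n := n) h0
  obtain ⟨C, hC⟩ := sob_glob (gs_cut hR h1 h2 h.1) (h.cut hR h1 h2)
  refine ⟨C, fun z hz => ?_⟩
  have := hC z hz.2
  rwa [h3 z hz.1, one_smul] at this

end Vale.Agent.P088.Rg
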