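import Vale.Agent.P088R.RDefs
import Vale.Agent.P088F.BXp
import Vale.Agent.P088F.GXs

/-! P088: boundary charts and the Poincare inequality.
Hints: `exists_xp`: as in P088F/BMain: `B.gam_ball` (with `O = univ`), `B.cc_ext`, `B.xp_of` with `Ψ = Φ = id`, `U = 1`, `E = D`.
`poin0`: take `XP` with radius `r`, `XP.shrink` to `r / 2`, `XP.exists_j`, `XP.poin` for `d = tm n (r / 2) ζ` (`tm_val`, `um_tm`,
`GXq2_Q`, `GXq_norm`, `IsJ`). `xp_ew`: `MW.ewi` on `τ '' up n r`, `EIso.ew_pb`, `XP.xpl_rel`. -/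

open MeasureTheory Set Filter Bundle Metric Topology Matrix
open scoped Manifold ContDiff ENNReal NNReal

noncomputable section

namespace Vale.Agent.P088.Rg

open Gl
open B (pd Hs)

variable {n N : ℕ} [NeZero n] {M : Type} [TopologicalSpace M]
  [ChartedSpace (EuclideanHalfSpace n) M] [IsManifold (𝓡∂ n) ∞ M] [T2Space M] [CompactSpace M]
  [MeasurableSpace M] [BorelSpace M] {g : Met (𝓡∂ n) M} {μ : Measure M} {A : Conn (𝓡∂ n) M N}
  {p : M} {f u : M → Fb N}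

omit [T2Space M] [CompactSpace M] [MeasurableSpace M] [BorelSpace M] in
theorem exists_xp (g : Met (𝓡∂ n) M) (A : Conn (𝓡∂ n) M N) (hp : p ∈ (𝓡∂ n).boundary M) :
    ∃ (r : ℝ) (τ θ : Ec n → Ec n) (W : Ec n → Op N) (γ : Geo n N),
      XP ((𝓡∂ n).boundary M) g A p r τ θ W γ := by
  have hI := B.range_hc (n := n)
  obtain ⟨R, hR, hT, hb⟩ := B.gam_ball hI isOpen_univ (univ_inter _).symm hp
  have hz : extChartAt (𝓡∂ n) p p 0 = 0 := (B.bd_iff hI (mem_extChartAt_source p)).1 hp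
  obtain ⟨r, hr, l, D, h, e⟩ := B.cc_ext hI g A hp hR hT
  have hj : ∀ x : Ec n, B.jac id x = 1 := fun x => by
    ext i j
    simp [B.jac, Matrix.one_apply, bv]
  refine ⟨r, _, _, _, _, B.xp_of (Ψ := id) (Φ := id) (U := fun _ => 1) rfl hz hr
    (fun y hy => hT ⟨closedBall_subset_closedBall l hy.1, hy.2⟩)
    (fun y hy => hb y (closedBall_subset_closedBall l hy)) e
    ⟨contDiff_id, contDiff_id, contDiff_const, fun _ _ => rfl, fun s _ hs => by rwa [image_id],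
      fun x _ => by rw [hj, Matrix.det_one]; exact one_ne_zero, fun _ _ _ => ⟨rfl, rfl⟩,
      fun _ _ => Iff.rfl, fun _ _ => Iff.rfl, fun _ _ => one_mem _⟩ (mapsTo_id _) h
    fun x _ _ => ⟨?_, funext fun j => ?_⟩⟩
  · simp [B.Co.pb, hj]
  · have e1 : ∑ k, (1 : Matrix (Fin n) (Fin n) ℝ) k j • D.C x k = D.C x j := by
      rw [Finset.sum_eq_single j (fun k _ hk => by rw [Matrix.one_apply_ne hk]; ext1 v; simp)
        (fun h => absurd (Finset.mem_univ j) h), Matrix.one_apply_eq, one_smul]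
    simp only [B.Co.pb, hj, id, e1]
    simp [pd]

theorem poin0 [ConnectedSpace M] (hv : IsVol g μ) (A : Conn (𝓡∂ n) M N) (hp : p ∈ (𝓡∂ n).boundary M) :
    ∃ K : ℝ, 0 ≤ K ∧ ∀ ζ, MT (𝓡∂ n) ((𝓡∂ n).interior M) ζ → ∫ x, ‖ζ x‖ ^ 2 ∂μ ≤ K * En g μ A ζ := by
  obtain ⟨r, τ, θ, W, γ, h⟩ := exists_xp g A hp
  have h' := h.shrink (half_pos h.r0) (half_le_self h.r0.le)
  obtain ⟨j, hj⟩ := h'.exists_j hv
  obtain ⟨Λ, hΛ⟩ := h'.poin (by rw [mul_div_cancel₀ _ two_ne_zero]; exact h.sm) hv hj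
  refine ⟨Λ ^ 2, sq_nonneg _, fun ζ hζ => ?_⟩
  have h1 := hΛ (tm n (r / 2) ζ)
  have h2 := (hj (tm n (r / 2) ζ)).1
  rw [um_tm hζ] at h2
  have h3 : ∫ x, ‖ζ x‖ ^ 2 ∂μ = ‖(j (tm n (r / 2) ζ)).fst‖ ^ 2 := by
    rw [← real_inner_self_eq_norm_sq, L2.inner_def]
    simp only [real_inner_self_eq_norm_sq]
    exact integral_congr_ae (h2.mono fun x hx => by simp only [hx])
  have h4 : (XQ g μ A p (r / 2) τ θ W γ (tm n (r / 2) ζ) (tm n (r / 2) ζ)).re = En g μ A ζ := by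
    rw [XQ, um_tm hζ, tm_val hζ]
    have h0 : ∀ z, γ.den (0 : Ec n → Fb N) 0 z = 0 := fun z => γ.den_zero_right _ (by simp)
    simp only [h0, smul_zero, integral_zero, add_zero, En]
  rw [WithLp.prod_norm_sq_eq_of_L2, h4] at h1
  rw [h3]
  linarith [sq_nonneg ‖(j (tm n (r / 2) ζ)).snd‖]

theorem xp_ew {Γ : Set M} {r : ℝ} {τ θ : Ec n → Ec n} {W : Ec n → Op N} {γ : Geo n N}
    (h : XP Γ g A p r τ θ W γ) (hv : IsVol g μ) (hu : MW g μ A ((𝓡∂ n).interior M) u 0) :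
    EW (up n r) γ (xpl p τ W u) 0 := by
  exact h.iso.ew_pb (h.sm.sub inter_subset_left) (hu.ewi hv h.int.image_subset) (mapsTo_image _ _)
    (fun z hz => h.xpl_rel u z ⟨hz.1, show 0 ≤ z 0 from le_of_lt hz.2⟩) fun z _ => by simp [pl]

end Vale.Agent.P088.Rg
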