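import Vale.Agent.P088R.RZero
import Vale.Agent.P088F.GXl1

/-! P088, boundary regularity: limits of test sections are in the Hardy class.
Hints: fix `ρ < ρ' < r`; `Geo.un_of_compact` on `closedBall 0 ρ'` gives `κ`; `pd i ψ z = γ.D i ψ z - γ.a i z (ψ z)` with `γ.a i`
bounded on `closedBall 0 ρ'`. Gradient: `GXl1_lsc` on `up n r`. Hardy part: `hardy_lim` with `r := ρ'` and `zk_of_zero`;
`‖ψ‖ ^ 2 ≤ 2 ‖v‖ ^ 2 + 2 ‖ψ - v‖ ^ 2`, wlog `ε ≤ 1`. `L2` from a finite `lintegral`: `memLp_two_iff_integrable_sq_norm`,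
`ContinuousOn.aestronglyMeasurable`. -/

open MeasureTheory Set Filter Metric Topology
open scoped ContDiff ENNReal RealInnerProductSpace

noncomputable section

namespace Vale.Agent.P088.Rg

open Gl
open B (pd Hs)

variable {n N : ℕ} [NeZero n] {γ : Geo n N} {r : ℝ} {v : Ec n → Fb N}

theorem RZl_open (n : ℕ) [NeZero n] (r : ℝ) : IsOpen (up n r) := isOpen_ball.inter (isOpen_Hs n)

theorem RZl_pt (hs : γ.Sm (ball 0 r)) {ρ : ℝ} (h : ρ < r) : ∃ K : ℝ, 0 < K ∧ ∀ z ∈ up n ρ,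
    (∀ X : Fb N, ‖X‖ ^ 2 ≤ K * (γ.vol z * ‖X‖ ^ 2)) ∧ ∀ (u : Ec n → Fb N) j,
      ‖u z‖ ^ 2 + ‖pd j u z‖ ^ 2 ≤ K * (γ.vol z * (γ.den u u z).re + γ.vol z * ‖u z‖ ^ 2) := by
  have hC : closedBall (0 : Ec n) ρ ⊆ ball 0 r := closedBall_subset_ball h
  obtain ⟨κ, hκ, hu⟩ := Geo.un_of_compact (γ := γ) (isCompact_closedBall 0 ρ)
    (fun i j => (hs.g i j).continuousOn.mono hC) fun z hz => hs.pos z (hC hz)
  obtain ⟨M, hM⟩ := (isCompact_closedBall (0 : Ec n) ρ).exists_bound_of_continuousOn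
    (f := fun z i => γ.a i z) (continuousOn_pi.2 fun i => (hs.a i).continuousOn.mono hC)
  refine ⟨κ⁻¹ * (1 + 2 * M ^ 2) + 2 * κ⁻¹ * κ⁻¹, by positivity, fun z hz => ?_⟩
  have hz' : z ∈ closedBall (0 : Ec n) ρ := ball_subset_closedBall hz.1
  obtain ⟨h1, -, h3⟩ := hu z hz'
  have hi : 0 < κ⁻¹ := inv_pos.2 hκ
  have h4 : ∀ x : ℝ, 0 ≤ x → x ≤ κ⁻¹ * (γ.vol z * x) := fun x hx => by
    rw [le_inv_mul_iff₀ hκ]; exact mul_le_mul_of_nonneg_right h1 hx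
  have h5 : ∀ x : ℝ, 0 ≤ x → 0 ≤ γ.vol z * x := fun x hx => mul_nonneg (hκ.le.trans h1) hx
  refine ⟨fun X => ?_, fun u j => ?_⟩
  · have := h4 _ (sq_nonneg ‖X‖)
    have := h5 _ (sq_nonneg ‖X‖)
    have : 0 ≤ (κ⁻¹ * (2 * M ^ 2) + 2 * κ⁻¹ * κ⁻¹) * (γ.vol z * ‖X‖ ^ 2) := by positivity
    linarith
  · have d0 := Geo.den_nonneg (hs.pos z (hC hz')) u
    have a1 : ‖γ.D j u z‖ ^ 2 ≤ κ⁻¹ * (γ.den u u z).re := by
      rw [le_inv_mul_iff₀ hκ]
      refine le_trans (mul_le_mul_of_nonneg_left ?_ hκ.le) (h3 fun i => γ.D i u z)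
      exact Finset.single_le_sum (f := fun i => ‖γ.D i u z‖ ^ 2) (fun i _ => sq_nonneg _)
        (Finset.mem_univ j)
    have a2 : ‖γ.a j z (u z)‖ ≤ M * ‖u z‖ := ((γ.a j z).le_opNorm _).trans
      (mul_le_mul_of_nonneg_right ((norm_le_pi_norm (fun i => γ.a i z) j).trans (hM z hz'))
        (norm_nonneg _))
    have a3 : ‖pd j u z‖ ≤ ‖γ.D j u z‖ + ‖γ.a j z (u z)‖ := by
      have : pd j u z = γ.D j u z - γ.a j z (u z) := by simp [Geo.D, pd]
      rw [this]; exact norm_sub_le _ _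
    have a4 : ‖pd j u z‖ ^ 2 ≤ 2 * ‖γ.D j u z‖ ^ 2 + 2 * (M ^ 2 * ‖u z‖ ^ 2) := by
      have b1 := pow_le_pow_left₀ (norm_nonneg _) a3 2
      have b2 := pow_le_pow_left₀ (norm_nonneg _) a2 2
      nlinarith [sq_nonneg (‖γ.D j u z‖ - ‖γ.a j z (u z)‖)]
    have a5 := mul_le_mul_of_nonneg_left (h4 _ d0) hi.le
    have a6 := mul_le_mul_of_nonneg_left (h4 _ (sq_nonneg ‖u z‖)) (sq_nonneg M)
    have a7 := h4 _ (sq_nonneg ‖u z‖)
    have a8 : 0 ≤ κ⁻¹ * (1 + 2 * M ^ 2) * (γ.vol z * (γ.den u u z).re) := by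
      have := h5 _ d0; positivity
    have a9 : 0 ≤ 2 * κ⁻¹ * κ⁻¹ * (γ.vol z * ‖u z‖ ^ 2) := by
      have := h5 _ (sq_nonneg ‖u z‖); positivity
    nlinarith

theorem RZl_meas (hs : γ.Sm (ball 0 r)) {u : Ec n → Fb N} (hu : ContinuousOn u (up n r)) :
    AEMeasurable (fun z => ENNReal.ofReal (γ.vol z * ‖u z‖ ^ 2)) (volume.restrict (up n r)) := by
  have hG : ContinuousOn γ.g (up n r) := continuousOn_pi.2 fun i => continuousOn_pi.2 fun j =>
    (hs.g i j).continuousOn.mono inter_subset_left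
  have hd : ContinuousOn (fun z => γ.vol z * ‖u z‖ ^ 2) (up n r) :=
    (continuous_id.matrix_det.comp_continuousOn hG).sqrt.mul (hu.norm.pow 2)
  exact (hd.aemeasurable (RZl_open n r).measurableSet).ennreal_ofReal

theorem RZl_le {ρ K : ℝ} (h : ρ ≤ r) (hK : 0 ≤ K) {f g : Ec n → ℝ}
    (hf : ∀ z ∈ up n ρ, f z ≤ K * g z) : ∫⁻ z in up n ρ, ENNReal.ofReal (f z) ≤
      ENNReal.ofReal K * ∫⁻ z in up n r, ENNReal.ofReal (g z) := by
  rw [← lintegral_const_mul' _ _ ENNReal.ofReal_ne_top]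
  refine le_trans (setLIntegral_mono' (RZl_open n ρ).measurableSet fun z hz => ?_)
    (lintegral_mono_set (up_mono h))
  rw [← ENNReal.ofReal_mul hK]
  exact ENNReal.ofReal_le_ofReal (hf z hz)

theorem RZl_add {f g : Ec n → ℝ}
    (hg : AEMeasurable (fun z => ENNReal.ofReal (g z)) (volume.restrict (up n r))) :
    ∫⁻ z in up n r, ENNReal.ofReal (f z + g z) ≤
      (∫⁻ z in up n r, ENNReal.ofReal (f z)) + ∫⁻ z in up n r, ENNReal.ofReal (g z) := by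
  rw [← lintegral_add_right' _ hg]
  exact lintegral_mono fun z => ENNReal.ofReal_add_le

theorem zk_lim (hs : γ.Sm (ball 0 r)) (hv : ContDiffOn ℝ ∞ v (up n r))
    (h2 : ∫⁻ z in up n r, ENNReal.ofReal (γ.vol z * ‖v z‖ ^ 2) ≠ ⊤) {E : ℝ}
    (h : ∀ ε > 0, ∃ ψ : Ec n → Fb N, ContDiffOn ℝ ∞ ψ (ball 0 r) ∧
      (∀ z ∈ ball (0 : Ec n) r, z 0 = 0 → ψ z = 0) ∧
      ∫⁻ z in up n r, ENNReal.ofReal (γ.vol z * ‖ψ z - v z‖ ^ 2) ≤ ENNReal.ofReal ε ∧
      ∫⁻ z in up n r, ENNReal.ofReal (γ.vol z * (γ.den ψ ψ z).re) ≤ ENNReal.ofReal E) :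
    Zk r v := by
  refine ⟨hv, fun ρ hρ => ?_⟩
  obtain ⟨ρ', r1, r2⟩ := exists_between hρ
  obtain ⟨K, hK, hb⟩ := RZl_pt hs r2
  have hmv := RZl_meas hs hv.continuousOn
  refine ⟨?_, fun j => ?_⟩
  · refine hardy_lim (hv.continuousOn.mono (up_mono r2.le)) r1
      (E := (ENNReal.ofReal K * (ENNReal.ofReal E + ENNReal.ofReal 2 * (1 +
        ∫⁻ z in up n r, ENNReal.ofReal (γ.vol z * ‖v z‖ ^ 2)))).toReal) fun ε hε => ?_
    obtain ⟨ψ, p1, p2, p3, p4⟩ := h (min (ε / K) 1) (lt_min (div_pos hε hK) one_pos)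
    refine ⟨ψ, zk_of_zero (p1.mono (ball_subset_ball r2.le)) fun z hz =>
      p2 z (ball_subset_ball r2.le hz), ?_, ?_⟩
    · refine (RZl_le r2.le hK.le fun z hz => (hb z hz).1 _).trans ?_
      refine (mul_le_mul_right p3 _).trans ?_
      rw [← ENNReal.ofReal_mul hK.le]
      refine ENNReal.ofReal_le_ofReal ?_
      rw [← le_div_iff₀' hK]
      exact min_le_left _ _
    · rw [ENNReal.ofReal_toReal (by finiteness)]
      refine (RZl_le r2.le hK.le fun z hz => (hb z hz).2 ψ 0).trans (mul_le_mul_right ?_ _)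
      refine (RZl_add (RZl_meas hs (p1.continuousOn.mono inter_subset_left))).trans
        (add_le_add p4 ?_)
      refine (RZl_le le_rfl zero_le_two (g := fun z => γ.vol z * ‖ψ z - v z‖ ^ 2 +
        γ.vol z * ‖v z‖ ^ 2) fun z _ => ?_).trans (mul_le_mul_right ?_ _)
      · have a1 : ‖ψ z‖ ≤ ‖ψ z - v z‖ + ‖v z‖ := by simpa using norm_add_le (ψ z - v z) (v z)
        have a2 : ‖ψ z‖ ^ 2 ≤ 2 * (‖ψ z - v z‖ ^ 2 + ‖v z‖ ^ 2) := by
          nlinarith [pow_le_pow_left₀ (norm_nonneg _) a1 2, sq_nonneg (‖ψ z - v z‖ - ‖v z‖)]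
        have a3 := mul_le_mul_of_nonneg_left a2 (Real.sqrt_nonneg (γ.g z).det)
        change γ.vol z * _ ≤ γ.vol z * _ at a3
        linarith
      · refine (RZl_add hmv).trans (add_le_add (p3.trans ?_) le_rfl)
        exact ENNReal.ofReal_le_one.2 (min_le_right _ _)
  · have h3 := GXl1_lsc (RZl_open n r) (hs.mono inter_subset_left) hv (E := E) fun ε hε => by
      obtain ⟨ψ, p1, -, p3, p4⟩ := h ε hε
      exact ⟨ψ, p1.mono inter_subset_left, p3, p4.trans (ENNReal.ofReal_le_ofReal (by linarith))⟩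
    have h4 := (RZl_le (r1.trans r2).le hK.le (f := fun z => ‖pd j v z‖ ^ 2) fun z hz =>
      le_trans (le_add_of_nonneg_left (sq_nonneg _)) ((hb z (up_mono r1.le hz)).2 v j)).trans
        (mul_le_mul_right ((RZl_add hmv).trans (add_le_add h3 le_rfl)) _)
    have hc : ContinuousOn (pd j v) (up n ρ) :=
      (pd_sm (RZl_open n r) hv j).continuousOn.mono (up_mono hρ.le)
    have hm := hc.aestronglyMeasurable (μ := volume) (RZl_open n ρ).measurableSet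
    refine (memLp_two_iff_integrable_sq_norm hm).2 ⟨hm.norm.pow 2, ?_⟩
    rw [hasFiniteIntegral_iff_ofReal (Eventually.of_forall fun z => sq_nonneg _)]
    exact h4.trans_lt (by finiteness)

end Vale.Agent.P088.Rg
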