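import Vale.Agent.P088R.REbr
import Vale.Agent.P088R.RZl
import Vale.Agent.P088R.RXp
import Vale.Agent.P088R.RMin

/-! P088: the Dirichlet problem has a solution which is smooth up to the boundary. -/

open MeasureTheory Set Filter Bundle Metric Topology Matrix
open scoped Manifold ContDiff ENNReal NNReal

noncomputable section

namespace Vale.Agent.P088.Rg

open Gl
open B (pd Hs)

variable {n N : ℕ} [NeZero n] {M : Type} [TopologicalSpace M]
  [ChartedSpace (EuclideanHalfSpace n) M] [IsManifold (𝓡∂ n) ∞ M] [T2Space M] [CompactSpace M]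
  [MeasurableSpace M] [BorelSpace M] {g : Met (𝓡∂ n) M} {μ : Measure M} {A : Conn (𝓡∂ n) M N}
  {p : M} {f u : M → Fb N}

theorem RSol_zk {Γ : Set M} {r E : ℝ} {τ θ : Ec n → Ec n} {W : Ec n → Op N} {γ : Geo n N}
    (h : XP Γ g A p r τ θ W γ) (hv : IsVol g μ) (hf : ContMDiff (𝓡∂ n) 𝓘(ℝ, Fb N) ∞ f)
    (hu : ContMDiffOn (𝓡∂ n) 𝓘(ℝ, Fb N) ∞ u ((𝓡∂ n).interior M)) (h2 : MemLp u 2 μ)
    (ha : ∀ ε > 0, ∃ ζ, MT (𝓡∂ n) ((𝓡∂ n).interior M) ζ ∧ En g μ A ζ ≤ E ∧
      ∫⁻ x, ENNReal.ofReal (‖ζ x - (u x - f x)‖ ^ 2) ∂μ ≤ ENNReal.ofReal ε)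
    {F : Ec n → Fb N} (hF : ContDiff ℝ ∞ F) (e : ∀ z ∈ up n r, F z = xpl p τ W f z) :
    Zk r fun z => xpl p τ W u z - F z := by
  have o := isOpen_up n r
  have key : ∀ k : M → Fb N, ∫⁻ z in up n r, ENNReal.ofReal (γ.vol z * ‖xpl p τ W k z‖ ^ 2) ≤
      ∫⁻ x, ENNReal.ofReal (‖k x‖ ^ 2) ∂μ := fun k =>
    (GXq2_up h hv k).trans_le (setLIntegral_le_lintegral _ _)
  refine zk_lim (E := E) h.sm ((h.xpl_sm hu).sub hF.contDiffOn) ?_ fun ε hε => ?_
  · have := hv.finite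
    have m : MemLp (fun x => u x - f x) 2 μ := h2.sub
      (hf.continuous.memLp_of_hasCompactSupport (HasCompactSupport.of_compactSpace f))
    refine ne_top_of_le_ne_top ((memLp_two_iff_integrable_sq_norm m.1).1 m).lintegral_lt_top.ne
      (le_trans (le_of_eq ?_) (key fun x => u x - f x))
    refine setLIntegral_congr_fun o.measurableSet fun z hz => ?_
    simp only [e z hz, xpl, map_sub]
  obtain ⟨ζ, a1, a2, a3⟩ := ha ε hε
  refine ⟨xup p r τ W ζ, h.xup_sm a1, fun z _ h0 => indicator_of_notMem (fun hz => hz.2.ne' h0) _,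
    le_trans (le_trans (le_of_eq ?_) (key fun x => ζ x - (u x - f x))) a3, ?_⟩
  · refine setLIntegral_congr_fun o.measurableSet fun z hz => ?_
    simp only [e z hz, xup, indicator_of_mem hz, xpl, map_sub]
  · refine le_trans ?_ (((setLIntegral_le_lintegral (xpt p τ '' up n r) _).trans
      (GXp3_en hv a1.1).le).trans (ENNReal.ofReal_le_ofReal a2))
    rw [h.lintegral hv]
    refine le_of_eq (setLIntegral_congr_fun o.measurableSet fun z hz => ?_)
    have e1 : xup p r τ W ζ =ᶠ[𝓝 z] xpl p τ W ζ :=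
      eventually_of_mem (o.mem_nhds hz) fun y hy => indicator_of_mem hy _
    rw [h.den a1.1.contMDiffOn a1.1.contMDiffOn hz, γ.den_congr e1 e1,
      ENNReal.ofReal_mul (h.sm.vol_pos hz.1).le]

theorem exists_sol [ConnectedSpace M] (hv : IsVol g μ) (A : Conn (𝓡∂ n) M N)
    (hp : p ∈ (𝓡∂ n).boundary M) (hf : ContMDiff (𝓡∂ n) 𝓘(ℝ, Fb N) ∞ f) : ∃ u, IsSol g μ A f u := by
  classical
  obtain ⟨K, hK, hP⟩ := poin0 hv A hp
  obtain ⟨u, E, hu, h2, ha⟩ := weak_sol hv hK hP hf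
  have oi : IsOpen ((𝓡∂ n).interior M) := isOpen_interior'
  have ev : ∀ x ∈ (𝓡∂ n).interior M, ((𝓡∂ n).interior M).piecewise u f =ᶠ[𝓝 x] u := fun x hx =>
    eventually_of_mem (oi.mem_nhds hx) fun y hy => piecewise_eq_of_mem _ _ _ hy
  have bd : EqOn (((𝓡∂ n).interior M).piecewise u f) f ((𝓡∂ n).boundary M) := fun x hx =>
    piecewise_eq_of_notMem _ _ _ fun hx' =>
      disjoint_left.1 ((𝓡∂ n).disjoint_interior_boundary (M := M)) hx' hx
  refine ⟨((𝓡∂ n).interior M).piecewise u f, fun x => ?_, bd, fun ζ h1 h3 => ?_⟩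
  · by_cases hx : x ∈ (𝓡∂ n).interior M
    · exact (hu.1.contMDiffAt (oi.mem_nhds hx)).congr_of_eventuallyEq (ev x hx)
    have hb : x ∈ (𝓡∂ n).boundary M := by
      rw [← ModelWithCorners.compl_interior]
      exact hx
    obtain ⟨r, τ, θ, W, γ, h⟩ := exists_xp g A hb
    have r0 := h.r0
    obtain ⟨F, hF, e⟩ := B.ext_half (z := 0) (half_lt_self r0)
      (h.xpl_smooth (s := Gl.hp n r) hf.contMDiffOn (O := univ) subset_rfl (mapsTo_univ _ _))
    have h' := h.shrink (half_pos r0) (half_le_self r0.le)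
    have r1 : r / 2 / 2 < r / 2 := half_lt_self (half_pos r0)
    have r2 : 0 < r / 2 / 2 := half_pos (half_pos r0)
    obtain ⟨u', s1, s2, s3⟩ := ebr h'.sm hF (xp_ew h' hv hu)
      (RSol_zk h' hv hf hu.1 h2 ha hF fun z hz => e z (up_sub_hp hz)) r1 r2
    have h'' := h'.shrink r2 r1.le
    have x0 : x ∈ xpt x τ '' Gl.hp n (r / 2 / 2) := ⟨0, ⟨mem_ball_self r2, (le_refl (0 : ℝ) :)⟩, h''.kap_zero⟩
    refine ContMDiffOn.contMDiffAt ?_ (h''.isOpen_image.mem_nhds x0)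
    refine ((contDiffOn_op h''.sW s1).contMDiffOn.comp h''.inv_smooth ?_).congr ?_
    · rintro _ ⟨z, hz, rfl⟩
      rw [mem_preimage, h''.inv_kap hz]
      exact hz
    · rintro _ ⟨z, hz, rfl⟩
      simp only [Function.comp, h''.inv_kap hz]
      by_cases h0 : z ∈ up n (r / 2 / 2)
      · rw [piecewise_eq_of_mem _ _ _ (h''.kap_int h0), s2 h0]
        exact h''.xpl_rel u z hz
      · have z0 := GXt1_z0 hz h0
        rw [bd ((h''.kap_bd_iff hz).2 z0), s3 z hz z0, e z (GXt1_hp r1.le hz)]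
        exact h''.xpl_rel f z hz
  · rw [GXf_congr fun x hx => ev x (h3 hx), hu.2 ζ ⟨h1, h3⟩]
    simp

end Vale.Agent.P088.Rg
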