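import Vale.Agent.P088R.REn
import Vale.Agent.P088R.RGl

/-! P088, boundary regularity: tangential derivatives stay in the Hardy class.
Hints: `tan_glob`: `dq_fatou` for `ψ = pd i v` with `energy`, then `pd_comm`; `dq_fatou` for `ψ z = (z 0)⁻¹ • v z` with
`hardy` for the difference (`gs_dq`, `pd_shift`) and `energy` with `i = 0`; `pd j ψ z = (z 0)⁻¹ • pd j v z` for `j ≠ 0`.
`tan`: given `ρ < r` take `χ, R` from `exists_chi`, `R < ρ' < r`, `a'` from `Cf.glob` for `ρ'`, `w = χ • v`;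
`nd a w = χ • nd a v + lower order` is `Hk 0 r` (`Hk.smul`, `Hk.sum`, `Zk.h1`), so is `dv a w = nd a w + ∑ pd i (a i l) • pd l w`;
`dv a' w = dv a w` on `up n ρ'` and vanishes for `R < ‖z‖`: `l2_glob`. On `up n ρ`, `pd j w = pd j v` (`pd_congr`). -/

open MeasureTheory Set Filter Metric Topology
open scoped ContDiff ENNReal RealInnerProductSpace

noncomputable section

namespace Vale.Agent.P088.Rg

open Gl
open B (pd Hs)

variable {n : ℕ} [NeZero n] {V : Type} [NormedAddCommGroup V] [InnerProductSpace ℝ V]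
  [FiniteDimensional ℝ V] {u v w φ ψ : Ec n → V} {r ρ R : ℝ} {k : ℕ} {s : Set (Ec n)}
  {a : Fin n → Fin n → Ec n → ℝ} {c L : ℝ} {j : Fin n}

theorem RTan_up (n : ℕ) [NeZero n] (r : ℝ) : IsOpen (up n r) := isOpen_ball.inter (isOpen_Hs n)

omit [NeZero n] [FiniteDimensional ℝ V] in
theorem RTan_smul {b : Ec n → ℝ} {z : Ec n} (hb : DifferentiableAt ℝ b z)
    (hu : DifferentiableAt ℝ u z) (i : Fin n) :
    pd i (fun y => b y • u y) z = b z • pd i u z + pd i b z • u z := by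
  simp only [pd]
  rw [fderiv_fun_smul hb hu]
  simp

omit [NeZero n] [FiniteDimensional ℝ V] in
theorem RTan_add {z : Ec n} (hu : DifferentiableAt ℝ u z) (hv : DifferentiableAt ℝ v z)
    (i : Fin n) : pd i (fun y => u y + v y) z = pd i u z + pd i v z := by
  simp only [pd]
  rw [fderiv_fun_add hu hv]
  rfl

omit [NeZero n] [FiniteDimensional ℝ V] in
theorem RTan_sum {z : Ec n} {f : Fin n → Ec n → V} (hf : ∀ l, DifferentiableAt ℝ (f l) z)
    (i : Fin n) : pd i (fun y => ∑ l, f l y) z = ∑ l, pd i (f l) z := by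
  simp only [pd]
  rw [fderiv_fun_sum fun l _ => hf l]
  simp

omit [NeZero n] in
theorem RTan_da {W : Type} [NormedAddCommGroup W] [NormedSpace ℝ W] {f : Ec n → W} {z : Ec n}
    (hs : IsOpen s) (hf : ContDiffOn ℝ ∞ f s) (hz : z ∈ s) : DifferentiableAt ℝ f z :=
  (hf.contDiffAt (hs.mem_nhds hz)).differentiableAt (by simp)

theorem RTan_inv_sm : ContDiffOn ℝ ∞ (fun z : Ec n => (z 0)⁻¹) (Hs n) :=
  ContDiffOn.inv (by fun_prop) fun _ hz => ne_of_gt hz

theorem RTan_inv (hj : j ≠ 0) {z : Ec n} (hz : z ∈ Hs n) :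
    pd j (fun z : Ec n => (z 0)⁻¹) z = 0 := by
  have h0 : z 0 ≠ 0 := ne_of_gt hz
  have h1 : HasFDerivAt (fun y : Ec n => y 0) (EuclideanSpace.proj (𝕜 := ℝ) (0 : Fin n)) z :=
    (EuclideanSpace.proj (𝕜 := ℝ) (0 : Fin n)).hasFDerivAt
  have h2 := (hasDerivAt_inv h0).comp_hasFDerivAt z h1
  have h3 : fderiv ℝ (fun y : Ec n => (y 0)⁻¹) z = _ := h2.fderiv
  simp only [pd]
  rw [h3]
  simp [bv, hj.symm]

theorem RTan_nd (ha : Cf r a) {χ : Ec n → ℝ} (hχ : ContDiff ℝ ∞ χ) (h1 : Hk 1 r v)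
    (hG : Hk 0 r (nd a v)) : Hk 0 r (nd a fun z => χ z • v z) := by
  have c0 : ContDiffOn ℝ ∞ χ (ball 0 r) := hχ.contDiffOn
  have c1 : ∀ i, ContDiffOn ℝ ∞ (pd i χ) (ball 0 r) := fun i => pd_sm isOpen_ball c0 i
  have c2 : ∀ i l, ContDiffOn ℝ ∞ (pd i (pd l χ)) (ball 0 r) := fun i l =>
    pd_sm isOpen_ball (c1 l) i
  have hL : ∀ i l, Hk 0 r fun z =>
      pd i χ z • pd l v z + (pd l χ z • pd i v z + pd i (pd l χ) z • v z) := fun i l =>
    (Hk.smul (c1 i) (h1.pd l)).add ((Hk.smul (c1 l) (h1.pd i)).add (Hk.smul (c2 i l) h1.succ))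
  refine Hk.congr ((Hk.smul c0 hG).add (Hk.sum Finset.univ fun i _ => Hk.sum Finset.univ
    fun l _ => Hk.smul (ha.sm i l) (hL i l))) fun z hz => ?_
  have ho := RTan_up n r
  have e : ∀ i l, pd i (pd l fun z => χ z • v z) z = χ z • pd i (pd l v) z +
      (pd i χ z • pd l v z + (pd l χ z • pd i v z + pd i (pd l χ) z • v z)) := by
    intro i l
    have e1 : EqOn (pd l fun z => χ z • v z) (fun y => χ y • pd l v y + pd l χ y • v y)
        (up n r) := fun y hy =>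
      RTan_smul (RTan_da isOpen_ball c0 hy.1) (RTan_da ho h1.1 hy) l
    have d0 := RTan_da isOpen_ball c0 hz.1
    have d1 := RTan_da isOpen_ball (c1 l) hz.1
    have d2 := RTan_da ho h1.1 hz
    have d3 := RTan_da ho (pd_sm ho h1.1 l) hz
    rw [pd_congr ho e1 i hz, RTan_add (d0.fun_smul d3) (d1.fun_smul d2), RTan_smul d0 d3,
      RTan_smul d1 d2, add_assoc]
  simp only [nd, e, Finset.smul_sum, ← Finset.sum_add_distrib]
  refine Finset.sum_congr rfl fun i _ => Finset.sum_congr rfl fun l _ => ?_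
  rw [smul_add, smul_comm]

theorem RTan_dv (ha : Cf r a) (h1 : Hk 1 r w) (hG : Hk 0 r (nd a w)) : Hk 0 r (dv a w) := by
  refine Hk.congr (hG.add (Hk.sum Finset.univ fun i _ => Hk.sum Finset.univ
    fun l _ => Hk.smul (pd_sm isOpen_ball (ha.sm i l) i) (h1.pd l))) fun z hz => ?_
  have ho := RTan_up n r
  have d0 := fun i l => RTan_da isOpen_ball (ha.sm i l) hz.1
  have d1 := fun l => RTan_da ho (pd_sm ho h1.1 l) hz
  simp only [nd, dv, ← Finset.sum_add_distrib]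
  refine Finset.sum_congr rfl fun i _ => ?_
  rw [RTan_sum fun l => (d0 i l).fun_smul (d1 l)]
  exact Finset.sum_congr rfl fun l _ => RTan_smul (d0 i l) (d1 l) i

theorem tan_glob (ha : Cg V a c L) (hj : j ≠ 0) (hv : Gs R v) (hz : ZS (Hs n) v)
    (hG : L2 (Hs n) (dv a v)) : ZS (Hs n) (pd j v) := by
  obtain ⟨C, hC⟩ := energy ha hj hv hz hG
  have ho := isOpen_Hs n
  refine ⟨?_, fun i => ?_⟩
  · have hψ : ContDiffOn ℝ ∞ (fun z : Ec n => (z 0)⁻¹ • v z) (Hs n) := RTan_inv_sm.smul hv.1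
    have h := dq_fatou hj hψ hz.1 (C := 4 * C) fun t => by
      obtain ⟨g1, g2⟩ := gs_dq hj t hv hz
      have h1 := hardy g1 g2
      have e1 : ∫ z in Hs n, ‖pd 0 (fun z => v (z + t • bv j) - v z) z‖ ^ 2 =
          ∫ z in Hs n, ‖pd 0 v (z + t • bv j) - pd 0 v z‖ ^ 2 :=
        setIntegral_congr_fun ho.measurableSet fun z hz => by
          simp only [pd_shift hj t hv.1 0 hz]
      have e2 : ∀ z : Ec n, ((z + t • bv j) 0)⁻¹ • v (z + t • bv j) - (z 0)⁻¹ • v z =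
          (z 0)⁻¹ • (v (z + t • bv j) - v z) := fun z => by
        have : (z + t • bv j) 0 = z 0 := by simp [bv, hj.symm]
        rw [this, smul_sub]
      simp only [e2]
      rw [e1] at h1
      linarith [hC t 0]
    refine HS.congr (k := 0) ho h fun z hz' => ?_
    rw [RTan_smul (RTan_da ho RTan_inv_sm hz') (RTan_da ho hv.1 hz'), RTan_inv hj hz', zero_smul,
      add_zero]
  · have h := dq_fatou hj (pd_sm ho hv.1 i) (hz.2 i) fun t => hC t i
    exact HS.congr (k := 0) ho h (pd_comm ho hv.1 i j)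

theorem tan (ha : Cf r a) (hj : j ≠ 0) (hz : Zk r v) (hG : Hk 0 r (nd a v)) : Zk r (pd j v) := by
  refine ⟨pd_sm (RTan_up n r) hz.1 j, fun ρ hρ => ?_⟩
  obtain ⟨χ, R, hR, hχ, h0, h1, -⟩ := exists_chi (n := n) hρ
  obtain ⟨ρ', hR', hρ'⟩ := exists_between hR
  obtain ⟨a', c, L, ha', ea⟩ := Cf.glob V ha hρ'
  have hw := gs_cut hR hχ h0 hz.1
  have hzw := Zk.cut hR hχ h0 hz
  have hd := RTan_dv ha (Hk.smul hχ.contDiffOn hz.h1) (RTan_nd ha hχ hz.h1 hG)
  have hd' : L2 (up n ρ') (dv a' fun z => χ z • v z) := by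
    refine HS.congr (k := 0) (RTan_up n ρ') (hd.2 ρ' hρ') fun z hz' => ?_
    refine Finset.sum_congr rfl fun i _ => pd_congr (RTan_up n ρ') (fun y hy => ?_) i hz'
    exact Finset.sum_congr rfl fun l _ => by rw [ea i l hy.1]
  have hv : ∀ z : Ec n, R < ‖z‖ → dv a' (fun z => χ z • v z) z = 0 := by
    intro z hz'
    have ho : IsOpen {y : Ec n | R < ‖y‖} := isOpen_lt continuous_const continuous_norm
    refine Finset.sum_eq_zero fun i _ => ?_
    have e : EqOn (fun y => ∑ l, a' i l y • pd l (fun z => χ z • v z) y) (fun _ => 0)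
        {y : Ec n | R < ‖y‖} := fun y hy =>
      Finset.sum_eq_zero fun l _ => by rw [(hw.pd l).2 y hy, smul_zero]
    rw [pd_congr ho e i hz']
    simp [pd]
  have h := tan_glob ha' hj hw hzw (l2_glob hv hR' hd')
  have ho := RTan_up n ρ
  have e : EqOn (pd j v) (pd j fun z => χ z • v z) (up n ρ) :=
    pd_congr ho (fun y hy => by simp only [h1 y hy.1, one_smul]) j
  refine ⟨HS.congr (k := 0) ho (HS.mono (k := 0) h.1 (up_sub_Hs ρ)) fun z hz' => ?_, fun i =>
    HS.congr (k := 0) ho (HS.mono (k := 0) (h.2 i) (up_sub_Hs ρ)) (pd_congr ho e i)⟩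
  simp only [e hz']

end Vale.Agent.P088.Rg
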